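import Mathlib

/-!
# Row 291 (S0539), Mom/Rc : THE RECURSION CALCULUS OF SEC. 3.1, MODEL FREE      (owner helper23; head of MOM helper122; prefix `mom_rc_`, defs `MomKer`, `momS`, `momH`, `momQ`, `momW*`)

Design = sec3_122.md (d).  TEX[lem:shell-moments], TEX[moments:covariance] use the level loops around a site `z` only through the FIRST-DOMAIN KERNEL:
a flat problem on `F` has a first domain `D` (component of `z` off the boundary cluster) with probability `p F D`, and inside `D` one sees a fair sign and the flat problem on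
`nx D = D \ inner layer`.  Everything below is a statement on the numbers `p F D`:
* `momS K χ n F`  = expected number (weighted by `χ`) of nested domains, `n` = fuel (`n ≥ K.sz F` is exact: `mom_rc_sub`, `mom_rc_super`)
* `momH K χ n F`  = probability to meet a domain with `χ`
* `momQ K d k F`  = probability that the first `k` nested domains exist and have radius `≥ d`
RESULTS: `mom_rc_sub` (a sub-solution of the recursion is `≤ momS`), `mom_rc_H_le` (`momH ≤` any super-solution), `mom_rc_Q_pow`, `mom_rc_Qsum_le` (geometric decay),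
`mom_rc_shell` (= lem:shell-moments in first moment form), `mom_rc_pot` (small scales), `mom_rc_S_le_H` (`S ≤ (1+K) H`), the pattern walk on `ℤ/4` (`mom_rc_walk`, `mom_rc_pattern`).
-/

set_option autoImplicit false

namespace Claimed.Agent.R291

open Finset

/-- abstract first-domain kernel: `ch F` = possible first domains of `F`, `p F D` their probabilities, `nx D` = the next flat problem, `sz` a size which decreases,
`rad` = distance from the marked site to the complement, `good` = the class of problems on which the model identities hold (coconnected sets) -/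
structure MomKer (α : Type*) where
  ch : α → Finset α
  p : α → α → ℝ
  nx : α → α
  sz : α → ℕ
  rad : α → ℕ
  good : α → Prop

variable {α : Type*}

structure MomKer.Ok (K : MomKer α) : Prop where
  p_nn : ∀ F D, 0 ≤ K.p F D
  p_sum : ∀ F, ∑ D ∈ K.ch F, K.p F D ≤ 1
  sz_lt : ∀ F, ∀ D ∈ K.ch F, K.sz (K.nx D) < K.sz F
  rad_ch : ∀ F, ∀ D ∈ K.ch F, K.rad D ≤ K.rad F
  rad_nx : ∀ D, K.rad (K.nx D) ≤ K.rad D
  good_nx : ∀ F, K.good F → ∀ D ∈ K.ch F, K.good (K.nx D)

/-- expected `χ`-weighted number of nested domains, with fuel -/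
noncomputable def momS (K : MomKer α) (χ : α → ℝ) : ℕ → α → ℝ
  | 0, _ => 0
  | n + 1, F => ∑ D ∈ K.ch F, K.p F D * (χ D + momS K χ n (K.nx D))

open Classical in
/-- probability to meet a nested domain with `χ`, with fuel -/
noncomputable def momH (K : MomKer α) (χ : α → Prop) : ℕ → α → ℝ
  | 0, _ => 0
  | n + 1, F => ∑ D ∈ K.ch F, K.p F D * (if χ D then 1 else momH K χ n (K.nx D))

/-- probability that the first `k` nested domains exist and have radius at least `d` -/
noncomputable def momQ (K : MomKer α) (d : ℕ) : ℕ → α → ℝ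
  | 0, _ => 1
  | k + 1, F => ∑ D ∈ K.ch F, K.p F D * (if d ≤ K.rad D then momQ K d k (K.nx D) else 0)

variable {K : MomKer α}

theorem mom_rc_S_zero (χ : α → ℝ) (F : α) : momS K χ 0 F = 0 := rfl
theorem mom_rc_S_succ (χ : α → ℝ) (n : ℕ) (F : α) : momS K χ (n + 1) F = ∑ D ∈ K.ch F, K.p F D * (χ D + momS K χ n (K.nx D)) := rfl
theorem mom_rc_H_zero (χ : α → Prop) (F : α) : momH K χ 0 F = 0 := rfl
open Classical in
theorem mom_rc_H_succ (χ : α → Prop) (n : ℕ) (F : α) :
    momH K χ (n + 1) F = ∑ D ∈ K.ch F, K.p F D * (if χ D then 1 else momH K χ n (K.nx D)) := rfl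
theorem mom_rc_Q_zero (d : ℕ) (F : α) : momQ K d 0 F = 1 := rfl
theorem mom_rc_Q_succ (d k : ℕ) (F : α) :
    momQ K d (k + 1) F = ∑ D ∈ K.ch F, K.p F D * (if d ≤ K.rad D then momQ K d k (K.nx D) else 0) := rfl

/-- averaging against the kernel: a bound `≤ B` (`B ≥ 0`) on every term gives `≤ B` -/
theorem mom_rc_avg (hK : K.Ok) (F : α) (φ : α → ℝ) {B : ℝ} (hB : 0 ≤ B) (h : ∀ D ∈ K.ch F, φ D ≤ B) : ∑ D ∈ K.ch F, K.p F D * φ D ≤ B := by
  calc ∑ D ∈ K.ch F, K.p F D * φ D ≤ ∑ D ∈ K.ch F, K.p F D * B := sum_le_sum fun D hD => mul_le_mul_of_nonneg_left (h D hD) (hK.p_nn F D)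
    _ = (∑ D ∈ K.ch F, K.p F D) * B := by rw [sum_mul]
    _ ≤ 1 * B := mul_le_mul_of_nonneg_right (hK.p_sum F) hB
    _ = B := one_mul B

theorem mom_rc_S_nonneg (hK : K.Ok) {χ : α → ℝ} (hχ : ∀ D, 0 ≤ χ D) : ∀ (n : ℕ) (F : α), 0 ≤ momS K χ n F
  | 0, _ => le_rfl
  | n + 1, F => sum_nonneg fun D _ => mul_nonneg (hK.p_nn F D) (add_nonneg (hχ D) (mom_rc_S_nonneg hK hχ n _))

theorem mom_rc_S_mono (hK : K.Ok) {χ χ' : α → ℝ} (h : ∀ D, χ D ≤ χ' D) : ∀ (n : ℕ) (F : α), momS K χ n F ≤ momS K χ' n F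
  | 0, _ => le_rfl
  | n + 1, F => sum_le_sum fun D _ => mul_le_mul_of_nonneg_left (add_le_add (h D) (mom_rc_S_mono hK h n _)) (hK.p_nn F D)

theorem mom_rc_S_add (χ χ' : α → ℝ) : ∀ (n : ℕ) (F : α), momS K (fun D => χ D + χ' D) n F = momS K χ n F + momS K χ' n F
  | 0, _ => (add_zero 0).symm
  | n + 1, F => by
    rw [mom_rc_S_succ, mom_rc_S_succ, mom_rc_S_succ, ← sum_add_distrib]
    exact sum_congr rfl fun D _ => by rw [mom_rc_S_add χ χ' n]; ring

theorem mom_rc_S_const_zero : ∀ (n : ℕ) (F : α), momS K (fun _ => 0) n F = 0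
  | 0, _ => rfl
  | n + 1, F => by
    rw [mom_rc_S_succ]
    exact sum_eq_zero fun D _ => by rw [mom_rc_S_const_zero n]; ring

theorem mom_rc_S_sum {ι : Type*} (I : Finset ι) (χ : ι → α → ℝ) (n : ℕ) (F : α) :
    momS K (fun D => ∑ i ∈ I, χ i D) n F = ∑ i ∈ I, momS K (χ i) n F := by
  classical
  induction I using Finset.induction_on with
  | empty => simpa using mom_rc_S_const_zero n F
  | insert a s ha ih =>
    simp only [sum_insert ha]
    rw [mom_rc_S_add, ih]

/-- a weight which vanishes on all domains of radius `≤ R` is not seen from a problem of radius `≤ R` -/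
theorem mom_rc_S_vanish (hK : K.Ok) {χ : α → ℝ} {R : ℕ} (hχ : ∀ D, K.rad D ≤ R → χ D = 0) :
    ∀ (n : ℕ) (F : α), K.rad F ≤ R → momS K χ n F = 0
  | 0, _, _ => rfl
  | n + 1, F, hF => by
    rw [mom_rc_S_succ]
    refine sum_eq_zero fun D hD => ?_
    have h1 : K.rad D ≤ R := (hK.rad_ch F D hD).trans hF
    rw [hχ D h1, mom_rc_S_vanish hK hχ n _ ((hK.rad_nx D).trans h1)]
    ring

/-- **sub-solutions**: if `c F ≤ ∑ p F D (χ D + c (nx D))` on good problems then `c F ≤ momS K χ n F` as soon as `sz F ≤ n` -/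
theorem mom_rc_sub (hK : K.Ok) {χ c : α → ℝ} (hc : ∀ F, K.good F → c F ≤ ∑ D ∈ K.ch F, K.p F D * (χ D + c (K.nx D))) :
    ∀ (n : ℕ) (F : α), K.good F → K.sz F ≤ n → c F ≤ momS K χ n F
  | 0, F, hF, hn => by
    have hemp : K.ch F = ∅ := by
      rw [eq_empty_iff_forall_notMem]
      intro D hD
      have := hK.sz_lt F D hD
      omega
    have := hc F hF
    rw [hemp, sum_empty] at this
    exact this
  | n + 1, F, hF, hn => by
    refine (hc F hF).trans (sum_le_sum fun D hD => mul_le_mul_of_nonneg_left (add_le_add le_rfl ?_) (hK.p_nn F D))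
    exact mom_rc_sub hK hc n _ (hK.good_nx F hF D hD) (by have := hK.sz_lt F D hD; omega)

/-- **super-solutions**: the reverse inequality -/
theorem mom_rc_super (hK : K.Ok) {χ c : α → ℝ} (hc : ∀ F, K.good F → ∑ D ∈ K.ch F, K.p F D * (χ D + c (K.nx D)) ≤ c F) (h0 : ∀ F, K.good F → 0 ≤ c F) :
    ∀ (n : ℕ) (F : α), K.good F → momS K χ n F ≤ c F
  | 0, F, hF => h0 F hF
  | n + 1, F, hF => by
    refine le_trans (sum_le_sum fun D hD => mul_le_mul_of_nonneg_left (add_le_add le_rfl ?_) (hK.p_nn F D)) (hc F hF)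
    exact mom_rc_super hK hc h0 n _ (hK.good_nx F hF D hD)

theorem mom_rc_H_nonneg (hK : K.Ok) (χ : α → Prop) : ∀ (n : ℕ) (F : α), 0 ≤ momH K χ n F
  | 0, _ => le_rfl
  | n + 1, F => by
    classical
    rw [mom_rc_H_succ]
    refine sum_nonneg fun D _ => mul_nonneg (hK.p_nn F D) ?_
    split_ifs
    · exact zero_le_one
    · exact mom_rc_H_nonneg hK χ n _

open Classical in
/-- the hitting probability is below every super-solution (in the model: the probability of an event implied by the hit) -/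
theorem mom_rc_H_le (hK : K.Ok) {χ : α → Prop} {e : α → ℝ} (he : ∀ F, K.good F → ∑ D ∈ K.ch F, K.p F D * (if χ D then 1 else e (K.nx D)) ≤ e F)
    (h0 : ∀ F, K.good F → 0 ≤ e F) : ∀ (n : ℕ) (F : α), K.good F → momH K χ n F ≤ e F
  | 0, F, hF => h0 F hF
  | n + 1, F, hF => by
    rw [mom_rc_H_succ]
    refine le_trans (sum_le_sum fun D hD => mul_le_mul_of_nonneg_left ?_ (hK.p_nn F D)) (he F hF)
    split_ifs
    · exact le_rfl
    · exact mom_rc_H_le hK he h0 n _ (hK.good_nx F hF D hD)

open Classical in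
/-- (C5) `S_χ ≤ (1 + B) H_χ` if `S_χ ≤ B` on all good problems -/
theorem mom_rc_S_le_H (hK : K.Ok) {χ : α → Prop} {B : ℝ} (hB : ∀ (n : ℕ) (F : α), K.good F → momS K (fun D => if χ D then 1 else 0) n F ≤ B) :
    ∀ (n : ℕ) (F : α), K.good F → momS K (fun D => if χ D then 1 else 0) n F ≤ (1 + B) * momH K χ n F
  | 0, F, _ => by rw [mom_rc_S_zero, mom_rc_H_zero, mul_zero]
  | n + 1, F, hF => by
    rw [mom_rc_S_succ, mom_rc_H_succ, mul_sum]
    refine sum_le_sum fun D hD => ?_
    rw [mul_left_comm]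
    refine mul_le_mul_of_nonneg_left ?_ (hK.p_nn F D)
    have hg := hK.good_nx F hF D hD
    by_cases hχ : χ D
    · rw [if_pos hχ, if_pos hχ, mul_one]
      linarith [hB n _ hg]
    · rw [if_neg hχ, if_neg hχ, zero_add]
      exact mom_rc_S_le_H hK hB n _ hg

/-! ## The survival probabilities `momQ` -/

theorem mom_rc_Q_nonneg (hK : K.Ok) (d : ℕ) : ∀ (k : ℕ) (F : α), 0 ≤ momQ K d k F
  | 0, _ => zero_le_one
  | k + 1, F => by
    rw [mom_rc_Q_succ]
    refine sum_nonneg fun D _ => mul_nonneg (hK.p_nn F D) ?_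
    split_ifs
    · exact mom_rc_Q_nonneg hK d k _
    · exact le_rfl

theorem mom_rc_Q_le_one (hK : K.Ok) (d : ℕ) : ∀ (k : ℕ) (F : α), momQ K d k F ≤ 1
  | 0, _ => le_rfl
  | k + 1, F => by
    rw [mom_rc_Q_succ]
    refine mom_rc_avg hK F _ zero_le_one fun D _ => ?_
    split_ifs
    · exact mom_rc_Q_le_one hK d k _
    · exact zero_le_one

theorem mom_rc_Q_anti (hK : K.Ok) (d : ℕ) : ∀ (k : ℕ) (F : α), momQ K d (k + 1) F ≤ momQ K d k F
  | 0, F => mom_rc_Q_le_one hK d 1 F
  | k + 1, F => by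
    rw [mom_rc_Q_succ d (k + 1), mom_rc_Q_succ d k]
    refine sum_le_sum fun D _ => mul_le_mul_of_nonneg_left ?_ (hK.p_nn F D)
    split_ifs
    · exact mom_rc_Q_anti hK d k _
    · exact le_rfl

/-- semigroup inequality for the partial sums of `momQ` -/
theorem mom_rc_Qsum_semi (hK : K.Ok) (d R m : ℕ) {B : ℝ} (hB : ∀ F, K.good F → K.rad F ≤ R → ∑ j ∈ range m, momQ K d (j + 1) F ≤ B) :
    ∀ (k : ℕ) (F : α), K.good F → K.rad F ≤ R → ∑ j ∈ range m, momQ K d (k + j + 1) F ≤ momQ K d k F * B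
  | 0, F, hF, hR => by
    rw [mom_rc_Q_zero, one_mul]
    simpa only [zero_add] using hB F hF hR
  | k + 1, F, hF, hR => by
    have e1 : ∀ j, momQ K d (k + 1 + j + 1) F = ∑ D ∈ K.ch F, K.p F D * (if d ≤ K.rad D then momQ K d (k + j + 1) (K.nx D) else 0) := by
      intro j
      rw [show k + 1 + j + 1 = (k + j + 1) + 1 by ring, mom_rc_Q_succ]
    simp_rw [e1]
    rw [sum_comm, mom_rc_Q_succ, sum_mul]
    refine sum_le_sum fun D hD => ?_
    rw [← mul_sum, mul_assoc]
    refine mul_le_mul_of_nonneg_left ?_ (hK.p_nn F D)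
    by_cases hd : d ≤ K.rad D
    · simp only [if_pos hd]
      exact mom_rc_Qsum_semi hK d R m hB k _ (hK.good_nx F hF D hD) ((hK.rad_nx D).trans ((hK.rad_ch F D hD).trans hR))
    · simp only [if_neg hd, sum_const_zero, zero_mul, le_refl]

/-- (C3) geometric decay in summed form: if `k` further steps have probability `≤ ρ < 1` from every good problem of radius `≤ R`, the expected number of steps is `≤ k / (1 - ρ)` -/
theorem mom_rc_Qsum_le (hK : K.Ok) (d R k : ℕ) {ρ : ℝ} (hρ1 : ρ < 1) (hρ : ∀ F, K.good F → K.rad F ≤ R → momQ K d k F ≤ ρ) :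
    ∀ (n : ℕ) (F : α), K.good F → K.rad F ≤ R → ∑ j ∈ range n, momQ K d (j + 1) F ≤ k / (1 - ρ) := by
  intro n
  induction n using Nat.strong_induction_on with
  | _ n ih =>
    intro F hF hR
    have h1ρ : 0 < 1 - ρ := by linarith
    have hρ0 : 0 ≤ ρ := (mom_rc_Q_nonneg hK d k F).trans (hρ F hF hR)
    have hk0 : 0 < k := by
      rcases Nat.eq_zero_or_pos k with h0 | h0
      · have := hρ F hF hR
        rw [h0, mom_rc_Q_zero] at this
        linarith
      · exact h0
    have hsmall : ∀ m : ℕ, ∑ j ∈ range m, momQ K d (j + 1) F ≤ m := by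
      intro m
      calc ∑ j ∈ range m, momQ K d (j + 1) F ≤ ∑ _j ∈ range m, (1 : ℝ) := sum_le_sum fun j _ => mom_rc_Q_le_one hK d _ F
        _ = m := by simp
    have hkB : (k : ℝ) ≤ k / (1 - ρ) := by
      rw [le_div_iff₀ h1ρ]
      have : (0 : ℝ) ≤ k := Nat.cast_nonneg k
      nlinarith
    rcases le_or_gt n k with hnk | hnk
    · have : (n : ℝ) ≤ k := by exact_mod_cast hnk
      exact ((hsmall n).trans this).trans hkB
    · obtain ⟨m, rfl⟩ : ∃ m, n = k + m := Nat.exists_eq_add_of_le hnk.le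
      rw [sum_range_add]
      have h2 := mom_rc_Qsum_semi hK d R m (ih m (by omega)) k F hF hR
      have h3 : momQ K d k F * (k / (1 - ρ)) ≤ ρ * (k / (1 - ρ)) := mul_le_mul_of_nonneg_right (hρ F hF hR) (by positivity)
      have h4 : (k : ℝ) + ρ * (k / (1 - ρ)) = k / (1 - ρ) := by field_simp; ring
      have h5 := hsmall k
      linarith

/-- the shell `[d, 2d)` -/
def momShell (K : MomKer α) (d : ℕ) (D : α) : Prop := d ≤ K.rad D ∧ K.rad D < 2 * d

open Classical in
/-- the shell count is below the number of steps of radius `≥ d` -/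
theorem mom_rc_shell_le_Q (hK : K.Ok) (d : ℕ) :
    ∀ (n : ℕ) (F : α), momS K (fun D => if momShell K d D then 1 else 0) n F ≤ ∑ j ∈ range n, momQ K d (j + 1) F
  | 0, F => by rw [mom_rc_S_zero, range_zero, sum_empty]
  | n + 1, F => by
    simp_rw [mom_rc_Q_succ]
    rw [mom_rc_S_succ, sum_comm]
    refine sum_le_sum fun D hD => ?_
    rw [← mul_sum]
    refine mul_le_mul_of_nonneg_left ?_ (hK.p_nn F D)
    by_cases hd : d ≤ K.rad D
    · simp only [if_pos hd]
      rw [sum_range_succ', mom_rc_Q_zero]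
      have h1 := mom_rc_shell_le_Q hK d n (K.nx D)
      have h2 : (if momShell K d D then (1 : ℝ) else 0) ≤ 1 := by split_ifs <;> norm_num
      linarith
    · simp only [if_neg hd, sum_const_zero]
      have h1 : ¬ momShell K d D := fun h => hd h.1
      rw [if_neg h1, zero_add]
      apply le_of_eq
      cases d with
      | zero => exact absurd (Nat.zero_le _) hd
      | succ d' =>
        refine mom_rc_S_vanish hK (R := d') (fun D' hD' => if_neg fun h => ?_) n _ ((hK.rad_nx D).trans (by omega))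
        have := h.1
        omega

open Classical in
/-- **(C3) = TEX[lem:shell-moments], first moment form**: if from every good problem of radius `< 2d` the probability of `k` further domains of radius `≥ d` is `≤ ρ < 1`,
then the expected number of nested domains with radius in `[d, 2d)` is `≤ 1 + k / (1 - ρ)` for EVERY good problem -/
theorem mom_rc_shell (hK : K.Ok) (d k : ℕ) {ρ : ℝ} (hρ1 : ρ < 1) (hρ : ∀ F, K.good F → K.rad F ≤ 2 * d → momQ K d k F ≤ ρ) :
    ∀ (n : ℕ) (F : α), K.good F → momS K (fun D => if momShell K d D then 1 else 0) n F ≤ 1 + k / (1 - ρ)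
  | 0, F, _ => by
    rw [mom_rc_S_zero]
    have : 0 < 1 - ρ := by linarith
    positivity
  | n + 1, F, hF => by
    have h1ρ : 0 < 1 - ρ := by linarith
    rw [mom_rc_S_succ]
    refine mom_rc_avg hK F _ (by positivity) fun D hD => ?_
    have hg := hK.good_nx F hF D hD
    by_cases hs : momShell K d D
    · rw [if_pos hs]
      have h1 := mom_rc_shell_le_Q hK d n (K.nx D)
      have h2 := mom_rc_Qsum_le hK d (2 * d) k hρ1 hρ n (K.nx D) hg ((hK.rad_nx D).trans hs.2.le)
      linarith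
    · rw [if_neg hs, zero_add]
      exact mom_rc_shell hK d k hρ1 hρ n _ hg

open Classical in
/-- (C4) small scales: a potential which never increases and drops at every counted step bounds the count -/
theorem mom_rc_pot (hK : K.Ok) {χ : α → Prop} (pot : α → ℕ) (h1 : ∀ F, ∀ D ∈ K.ch F, pot (K.nx D) ≤ pot F)
    (h2 : ∀ F, ∀ D ∈ K.ch F, χ D → pot (K.nx D) + 1 ≤ pot F) : ∀ (n : ℕ) (F : α), momS K (fun D => if χ D then 1 else 0) n F ≤ pot F
  | 0, F => by rw [mom_rc_S_zero]; exact Nat.cast_nonneg _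
  | n + 1, F => by
    rw [mom_rc_S_succ]
    refine mom_rc_avg hK F _ (Nat.cast_nonneg _) fun D hD => ?_
    have h3 := mom_rc_pot hK pot h1 h2 n (K.nx D)
    by_cases hχ : χ D
    · rw [if_pos hχ]
      have : ((pot (K.nx D) + 1 : ℕ) : ℝ) ≤ pot F := by exact_mod_cast h2 F D hD hχ
      push_cast at this
      linarith
    · rw [if_neg hχ, zero_add]
      have : (pot (K.nx D) : ℝ) ≤ pot F := by exact_mod_cast h1 F D hD
      linarith

end Claimed.Agent.R291
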