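import Claimed.Agent.R291.Dis.HtOrd
import Claimed.Agent.R291.Mom.Rc
import Claimed.Agent.R291.Exit.DisFirst
import Claimed.Agent.R291.Exit.DisObstr
import Claimed.Agent.R291.Exit.DisStack

/-!
# Row 291 (S0539), unit MOM, `Mom/Shell` : THE RECURSION CALCULUS OF NESTED DOMAINS      (owner helper122; prefix `mom_`, defs `mom*`)

TEX[lem:shell-moments], TEX[moments:covariance] (03-moments.tex l.36-215), LOOP FREE.    Design: `origin/helper122:notes/R291/sec3_122.md` (d).
Inputs: `exit_dis_first_geo`, `exit_dis_first` (first-domain decomposition), `exit_dis_obstr` (obstruction), `exit_dis_stack` (stack of circuits), API `ht_*`, `hto_*`.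

No random chain, no recursion on configurations: the MODEL-FREE calculus is `Mom/Rc.lean` (helper23: `MomKer`, `momS`, `momH`, `momQ`, fuel-indexed); this file INSTANTIATES it.
* `momP x z F D`     probability that the first domain of `z` in the flat problem on `F` is `D`
* `momRad z D`       distance from `z` to the complement of `D`:  `momRad z D ≤ n ↔ ¬ latBall z n ⊆ D`
* `momKer x z`       the first-domain kernel (`ch F` = subsets with `momP ≠ 0`, `p = momP x z`, `nx = latInt`, `sz = card`, `rad = momRad z`, `good = MomCo`)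
* `momF k t s`       probability that the walk of the residues started at `t` completes the pattern [W-wall with `B = +`; later a B-wall] within `k` steps (`s` = first half done)
§1 first domain: uniqueness, `momP`;   §2 the one-step inequalities;   §3 the kernel;   §4 covariance ≤ expected number of common domains;   §5 pattern + obstruction ⟹ shells;
§6 small scales;   §7 arms;   §8 dyadic sum ⟹ `mom_cov` (= `exit_mom_cov`).
-/

set_option autoImplicit false
set_option linter.unusedVariables false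

namespace Claimed.Agent.R291

open Claims Claims.C0467 Finset

/-! ## 1. The first domain -/

open Classical in
/-- probability that the first domain of `z` in the flat problem on `F` is `D` -/
noncomputable def momP (x : ℝ) (z : TV) (F D : Finset TV) : ℝ := htP x F 0 (fun h => ∃ e, MomFst F 0 z D e h)

/-- the properties of a possible first domain -/
structure MomOk (F : Finset TV) (z : TV) (D : Finset TV) : Prop where
  mem : z ∈ D
  sub : D ⊆ F
  conn : TscConn tscG (D : Set TV)
  co : MomCo D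
  coI : MomCo (latInt D)

/-- a finite nonempty set has a boundary site -/
theorem mom_bd_nonempty {D : Finset TV} (hD : D.Nonempty) : (latBd D).Nonempty := by
  obtain ⟨u, hu, hmax⟩ := D.exists_max_image (fun u : TV => u.1) hD
  refine ⟨u, Finset.mem_filter.2 ⟨hu, (1, 0), by decide, fun hc => ?_⟩⟩
  have := hmax _ hc
  simp at this

/-- the interior of a nonempty finite set is strictly smaller -/
theorem mom_int_card_lt {D : Finset TV} (hD : D.Nonempty) : (latInt D).card < D.card := by
  obtain ⟨u, hu⟩ := mom_bd_nonempty hD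
  refine Finset.card_lt_card ⟨lat_int_sub D, fun hc => ?_⟩
  have h1 := hc (lat_bd_sub D hu)
  rw [lat_int_eq] at h1
  exact (Finset.mem_sdiff.1 h1).2 hu

/-- the constant function is admissible -/
theorem mom_adm_const (F : Finset TV) (t : ℤ) : HtAdm F (fun _ => t) (fun _ => t) :=
  ht_adm_self (fun _ _ _ _ => by simp)

/-- uniqueness of the first domain and of its sign -/
theorem mom_fst_unique {F : Finset TV} {t : ℤ} {z : TV} {D D' : Finset TV} {e e' : ℤ} {h : TV → ℤ}
    (h1 : MomFst F t z D e h) (h2 : MomFst F t z D' e' h) : D = D' ∧ e = e' := by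
  have hD : D = D' := Finset.coe_injective (h1.2.1.symm.trans h2.2.1)
  subst hD
  obtain ⟨u, hu⟩ := mom_bd_nonempty ⟨z, h1.1⟩
  have := (h1.2.2 u hu).symm.trans (h2.2.2 u hu)
  exact ⟨rfl, by omega⟩

/-- all the geometry of a first domain -/
theorem mom_fst_ok {F : Finset TV} {t : ℤ} {z : TV} {D : Finset TV} {e : ℤ} {h : TV → ℤ} (hF : MomCo F)
    (hh : HtAdm F (fun _ => t) h) (h1 : MomFst F t z D e h) :
    MomOk F z D ∧ (e = 1 ∨ e = -1) ∧ ∀ v ∈ latOut D, h v = t := by
  rcases exit_dis_first_geo F t z h hF (ht_mem_cfg.2 hh) with hz | ⟨D', e', he', h2, hsub, hconn, hco, hcoI, hout⟩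
  · exfalso
    have hz' : z ∈ momD F t h z := by rw [h1.2.1]; exact Finset.mem_coe.2 h1.1
    exact (tsc_comp_sub z hz') hz
  · obtain ⟨rfl, rfl⟩ := mom_fst_unique h1 h2
    exact ⟨⟨h1.1, hsub, hconn, hco, hcoI⟩, he', hout⟩

/-- off the first domains `h z = t` -/
theorem mom_fst_none {F : Finset TV} {t : ℤ} {z : TV} {h : TV → ℤ} (hF : MomCo F) (hh : HtAdm F (fun _ => t) h)
    (hn : ∀ D e, ¬ MomFst F t z D e h) : h z = t := by
  rcases exit_dis_first_geo F t z h hF (ht_mem_cfg.2 hh) with hz | ⟨D', e', _, h2, _⟩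
  · obtain ⟨v, hv, hR⟩ := hz
    have : z ∈ {y | h y = t} := tsc_R_mem hR (hh.1 v hv)
    exact this
  · exact absurd h2 (hn D' e')

/-- shift covariance of the first domain -/
theorem mom_fst_shift (F : Finset TV) (t c : ℤ) (z : TV) (D : Finset TV) (e : ℤ) (h : TV → ℤ) :
    MomFst F (t + c) z D e (fun u => h u + c) ↔ MomFst F t z D e h := by
  have e1 : {y | h y + c = t + c} = {y | h y = t} := by
    ext y
    simp
  have e2 : momD F (t + c) (fun u => h u + c) z = momD F t h z := by
    unfold momD momC0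
    simp only [e1]
  unfold MomFst
  rw [e2]
  refine and_congr_right fun _ => and_congr_right fun _ => forall_congr' fun u => forall_congr' fun _ => ?_
  show h u + c = t + c + e ↔ h u = t + e
  constructor <;> intro hh <;> omega

theorem mom_P_nonneg {x : ℝ} (hx : 0 < x) (z : TV) (F D : Finset TV) : 0 ≤ momP x z F D := ht_P_nonneg hx _ _ _

/-- `momP` at any flat trace -/
theorem mom_P_shift (x : ℝ) (z : TV) (F D : Finset TV) (t : ℤ) :
    htP x F (fun _ => t) (fun h => ∃ e, MomFst F t z D e h) = momP x z F D := by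
  classical
  have h1 := ht_E_shift x F 0 t (fun h => if ∃ e, MomFst F t z D e h then (1 : ℝ) else 0)
  have e1 : (fun u : TV => (0 : TV → ℤ) u + t) = fun _ => t := by funext u; simp
  rw [e1] at h1
  unfold momP htP
  rw [h1]
  refine ht_E_congr x F 0 fun h _ => ?_
  have e2 : (∃ e, MomFst F t z D e fun u => h u + t) ↔ ∃ e, MomFst F 0 z D e h :=
    exists_congr fun e => by
      have := mom_fst_shift F 0 t z D e h
      rwa [zero_add] at this
  simp only [e2]

theorem mom_P_ok {x : ℝ} (hx : 0 < x) {z : TV} {F D : Finset TV} (hF : MomCo F) (hP : momP x z F D ≠ 0) : MomOk F z D := by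
  by_contra hcon
  refine hP ?_
  unfold momP htP
  refine (ht_E_congr x F 0 (G2 := fun _ => 0) fun h hh => ?_).trans (ht_E_zero x F 0)
  rw [if_neg]
  rintro ⟨e, he⟩
  exact hcon (mom_fst_ok hF hh he).1

/-- the first domains are disjoint events -/
theorem mom_P_sum_le {x : ℝ} (hx : 0 < x) (z : TV) (F : Finset TV) : ∑ D ∈ F.powerset, momP x z F D ≤ 1 := by
  classical
  unfold momP htP
  rw [← ht_E_sum]
  refine (ht_E_mono hx F 0 (G2 := fun _ => 1) fun h _ => ?_).trans (ht_E_one_le hx F 0)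
  by_cases hex : ∃ D ∈ F.powerset, ∃ e, MomFst F 0 z D e h
  · obtain ⟨D, hD, e, he⟩ := hex
    rw [Finset.sum_eq_single D]
    · split_ifs <;> norm_num
    · intro D' _ hne
      rw [if_neg]
      rintro ⟨e', he'⟩
      exact hne (mom_fst_unique he' he).1
    · intro hc; exact absurd hD hc
  · rw [Finset.sum_eq_zero]
    · norm_num
    · intro D hD
      rw [if_neg]
      exact fun hc => hex ⟨D, hD, hc⟩

/-- comparison of two `momP`-averages -/
theorem mom_P_sum_mono {x : ℝ} (hx : 0 < x) {z : TV} {F : Finset TV} (hF : MomCo F) {a b : Finset TV → ℝ}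
    (h : ∀ D, MomOk F z D → a D ≤ b D) : ∑ D ∈ F.powerset, momP x z F D * a D ≤ ∑ D ∈ F.powerset, momP x z F D * b D := by
  refine Finset.sum_le_sum fun D _ => ?_
  by_cases hP : momP x z F D = 0
  · rw [hP]; simp
  · exact mul_le_mul_of_nonneg_left (h D (mom_P_ok hx hF hP)) (mom_P_nonneg hx z F D)

/-- a `momP`-average of numbers `≤ c` is `≤ c` -/
theorem mom_P_sum_le_const {x : ℝ} (hx : 0 < x) {z : TV} {F : Finset TV} (hF : MomCo F) {a : Finset TV → ℝ} {c : ℝ} (hc : 0 ≤ c)
    (h : ∀ D, MomOk F z D → a D ≤ c) : ∑ D ∈ F.powerset, momP x z F D * a D ≤ c := by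
  calc ∑ D ∈ F.powerset, momP x z F D * a D ≤ ∑ D ∈ F.powerset, momP x z F D * c := mom_P_sum_mono hx hF h
    _ = (∑ D ∈ F.powerset, momP x z F D) * c := by rw [Finset.sum_mul]
    _ ≤ 1 * c := mul_le_mul_of_nonneg_right (mom_P_sum_le hx z F) hc
    _ = c := one_mul c

/-! ## 2. One step -/

open Classical in
/-- law of the inside, given the first domain and its sign (`exit_dis_first` with `ψ = 1`, any flat trace) -/
theorem mom_step_in {x : ℝ} (hx : 0 < x) {F : Finset TV} (hF : MomCo F) (t : ℤ) (z : TV) (D : Finset TV) {e : ℤ} (he : e = 1 ∨ e = -1)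
    (φ : (TV → ℤ) → ℝ) (hφ : HtLoc D φ) :
    htE x F (fun _ => t) (fun h => if MomFst F t z D e h then φ h else 0) = 1 / 2 * momP x z F D * htE x (latInt D) (fun _ => t + e) φ := by
  have h1 := exit_dis_first x hx F t z D e hF he φ (fun _ => 1) hφ (fun _ _ _ => rfl)
  simp only [mul_one] at h1
  rw [h1, ← mom_P_shift x z F D t]
  rfl

/-- **one-step lower bound** for the probability of an event which is implied by events of the insides -/
theorem mom_step_lb {x : ℝ} (hx : 0 < x) {F : Finset TV} (hF : MomCo F) (t : ℤ) (z : TV) (K : (TV → ℤ) → Prop)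
    (K' : Finset TV → ℤ → (TV → ℤ) → Prop)
    (hloc : ∀ D e h h', (∀ u ∈ D, h u = h' u) → (K' D e h ↔ K' D e h'))
    (himp : ∀ D e h, HtAdm F (fun _ => t) h → MomFst F t z D e h → K' D e h → K h) :
    ∑ D ∈ F.powerset, momP x z F D *
        (1 / 2 * (htP x (latInt D) (fun _ => t + 1) (K' D 1) + htP x (latInt D) (fun _ => t + -1) (K' D (-1)))) ≤
      htP x F (fun _ => t) K := by
  classical
  have hpt : ∀ H, HtAdm F (fun _ => t) H →
      ∑ D ∈ F.powerset, ((if MomFst F t z D 1 H then (if K' D 1 H then (1 : ℝ) else 0) else 0) +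
        (if MomFst F t z D (-1) H then (if K' D (-1) H then (1 : ℝ) else 0) else 0)) ≤ if K H then 1 else 0 := by
    intro H hH
    by_cases hK : K H
    · rw [if_pos hK]
      have h1 : ∑ D ∈ F.powerset, ((if MomFst F t z D 1 H then (if K' D 1 H then (1 : ℝ) else 0) else 0) +
          (if MomFst F t z D (-1) H then (if K' D (-1) H then (1 : ℝ) else 0) else 0)) ≤
          ∑ D ∈ F.powerset, if ∃ e, MomFst F t z D e H then (1 : ℝ) else 0 := by
        refine Finset.sum_le_sum fun D _ => ?_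
        by_cases a1 : MomFst F t z D 1 H
        · have a2 : ¬ MomFst F t z D (-1) H := fun a2 => by
            have := (mom_fst_unique a1 a2).2
            omega
          have a3 : ∃ e, MomFst F t z D e H := ⟨1, a1⟩
          rw [if_pos a1, if_neg a2, if_pos a3]
          split_ifs <;> norm_num
        · by_cases a2 : MomFst F t z D (-1) H
          · have a3 : ∃ e, MomFst F t z D e H := ⟨-1, a2⟩
            rw [if_neg a1, if_pos a2, if_pos a3]
            split_ifs <;> norm_num
          · rw [if_neg a1, if_neg a2]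
            split_ifs <;> norm_num
      refine h1.trans ?_
      rw [Finset.sum_boole]
      have : (F.powerset.filter fun D => ∃ e, MomFst F t z D e H).card ≤ 1 := by
        rw [Finset.card_le_one]
        intro a ha b hb
        obtain ⟨e, he⟩ := (Finset.mem_filter.1 ha).2
        obtain ⟨e', he'⟩ := (Finset.mem_filter.1 hb).2
        exact (mom_fst_unique he he').1
      exact_mod_cast this
    · rw [if_neg hK]
      refine le_of_eq (Finset.sum_eq_zero fun D _ => ?_)
      have b1 : ∀ e, (if MomFst F t z D e H then (if K' D e H then (1 : ℝ) else 0) else 0) = 0 := by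
        intro e
        by_cases a1 : MomFst F t z D e H
        · rw [if_pos a1, if_neg (fun k => hK (himp D e H hH a1 k))]
        · rw [if_neg a1]
      rw [b1, b1, add_zero]
  have h1 := ht_E_mono hx F (fun _ => t) hpt
  rw [ht_E_sum] at h1
  refine le_trans (le_of_eq ?_) h1
  refine Finset.sum_congr rfl fun D _ => ?_
  have hl : ∀ e, HtLoc D (fun H => if K' D e H then (1 : ℝ) else 0) := by
    intro e g g' hg
    have := hloc D e g g' hg
    show (if K' D e g then (1 : ℝ) else 0) = if K' D e g' then (1 : ℝ) else 0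
    simp only [this]
  rw [ht_E_add, mom_step_in hx hF t z D (Or.inl rfl) _ (hl 1), mom_step_in hx hF t z D (Or.inr rfl) _ (hl (-1))]
  unfold htP
  ring

/-! ## 3. The kernel -/

/-- distance from `z` to the complement of `D` -/
noncomputable def momRad (z : TV) (D : Finset TV) : ℕ := sInf {n | ¬ latBall z n ⊆ D}

theorem mom_ball_mono (z : TV) {r R : ℕ} (h : r ≤ R) : latBall z r ⊆ latBall z R := by
  intro u hu
  rw [lat_mem_ball] at hu ⊢
  exact hu.trans h

/-- no finite set contains all the balls -/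
theorem mom_ball_esc (z : TV) (D : Finset TV) : ∃ n : ℕ, ¬ latBall z n ⊆ D := by
  by_contra hcon
  push Not at hcon
  have hinj : Function.Injective (fun n : ℕ => ((z.1 + n, z.2) : TV)) := by
    intro a b hab
    have := congrArg Prod.fst hab
    simpa using this
  have hsub : Set.range (fun n : ℕ => ((z.1 + n, z.2) : TV)) ⊆ (D : Set TV) := by
    rintro _ ⟨n, rfl⟩
    refine hcon n ?_
    rw [lat_mem_ball]
    simp [latN]
  exact Set.infinite_range_of_injective hinj (D.finite_toSet.subset hsub)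

theorem mom_rad_le {z : TV} {D : Finset TV} {n : ℕ} : momRad z D ≤ n ↔ ¬ latBall z n ⊆ D := by
  constructor
  · intro h hsub
    have hm : momRad z D ∈ {n | ¬ latBall z n ⊆ D} := Nat.sInf_mem (mom_ball_esc z D)
    exact hm ((mom_ball_mono z h).trans hsub)
  · intro h
    exact Nat.sInf_le h

theorem mom_lt_rad {z : TV} {D : Finset TV} {n : ℕ} : n + 1 ≤ momRad z D ↔ latBall z n ⊆ D := by
  rw [Nat.succ_le_iff, ← not_le, mom_rad_le, not_not]

theorem mom_rad_mono (z : TV) {D F : Finset TV} (h : D ⊆ F) : momRad z D ≤ momRad z F := by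
  rw [mom_rad_le]
  intro h1
  exact (mom_rad_le.1 le_rfl) (h1.trans h)

theorem mom_mem_of_rad {z : TV} {D : Finset TV} (h : 1 ≤ momRad z D) : z ∈ D := by
  have := mom_lt_rad.1 (show 0 + 1 ≤ momRad z D from h)
  exact this (by rw [lat_mem_ball]; simp [latN])

open Classical in
/-- the first-domain kernel of the marked site `z` -/
noncomputable def momKer (x : ℝ) (z : TV) : MomKer (Finset TV) where
  ch := fun F => F.powerset.filter (fun D => momP x z F D ≠ 0)
  p := momP x z
  nx := latInt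
  sz := Finset.card
  rad := momRad z
  good := MomCo

/-- a possible first domain contains `z` (no hypothesis on `F`) -/
theorem mom_P_mem {x : ℝ} {z : TV} {F D : Finset TV} (hP : momP x z F D ≠ 0) : z ∈ D := by
  by_contra hcon
  apply hP
  unfold momP
  rw [ht_P_congr x F 0 (K2 := fun _ => False) (fun H _ => ⟨fun ⟨e, he⟩ => hcon he.1, False.elim⟩)]
  unfold htP
  simp [ht_E_zero]

theorem mom_mem_ch {x : ℝ} {z : TV} {F D : Finset TV} : D ∈ (momKer x z).ch F ↔ D ⊆ F ∧ momP x z F D ≠ 0 := by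
  classical
  simp [momKer]

theorem mom_ch_ok {x : ℝ} (hx : 0 < x) {z : TV} {F D : Finset TV} (hF : MomCo F) (hD : D ∈ (momKer x z).ch F) : MomOk F z D :=
  mom_P_ok hx hF (mom_mem_ch.1 hD).2

/-- sums over all subsets = sums over the kernel -/
theorem mom_ker_sum (x : ℝ) (z : TV) (F : Finset TV) (a : Finset TV → ℝ) :
    ∑ D ∈ F.powerset, momP x z F D * a D = ∑ D ∈ (momKer x z).ch F, (momKer x z).p F D * a D := by
  classical
  show _ = ∑ D ∈ F.powerset.filter (fun D => momP x z F D ≠ 0), momP x z F D * a D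
  rw [Finset.sum_filter]
  refine Finset.sum_congr rfl fun D _ => ?_
  by_cases h : momP x z F D = 0
  · simp [h]
  · simp [h]

theorem mom_ker_ok {x : ℝ} (hx : 0 < x) (z : TV) : (momKer x z).Ok where
  p_nn := fun F D => mom_P_nonneg hx z F D
  p_sum := fun F => by
    have h := mom_ker_sum x z F (fun _ => 1)
    simp only [mul_one] at h
    rw [← h]
    exact mom_P_sum_le hx z F
  sz_lt := fun F D hD => by
    have h1 := mom_mem_ch.1 hD
    exact (mom_int_card_lt ⟨z, mom_P_mem h1.2⟩).trans_le (Finset.card_le_card h1.1)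
  rad_ch := fun F D hD => mom_rad_mono z (mom_mem_ch.1 hD).1
  rad_nx := fun D => mom_rad_mono z (lat_int_sub D)
  good_nx := fun F hF D hD => (mom_ch_ok hx hF hD).coI

/-! ## 4. The covariance is the expected number of common domains -/

/-- the mean of a flat zero problem vanishes -/
theorem mom_mean_zero (x : ℝ) (F : Finset TV) (u : TV) : htE x F 0 (fun h => (h u : ℝ)) = 0 := by
  exact ht_E_odd x F fun h => by push_cast; ring

open Classical in
/-- the first domains with their signs are disjoint events: the sum over `(D, e)` has one term -/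
theorem mom_fst_part {F : Finset TV} {t : ℤ} {z : TV} {h : TV → ℤ} (hF : MomCo F) (hh : HtAdm F (fun _ => t) h) (G : Finset TV → ℤ → ℝ)
    {D0 : Finset TV} {e0 : ℤ} (h0 : MomFst F t z D0 e0 h) :
    ∑ D ∈ F.powerset, ((if MomFst F t z D 1 h then G D 1 else 0) + (if MomFst F t z D (-1) h then G D (-1) else 0)) = G D0 e0 := by
  obtain ⟨hok, he, _⟩ := mom_fst_ok hF hh h0
  rw [Finset.sum_eq_single D0]
  · rcases he with rfl | rfl
    · rw [if_pos h0, if_neg (fun h1 => by have := (mom_fst_unique h0 h1).2; omega), add_zero]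
    · rw [if_pos h0, if_neg (fun h1 => by have := (mom_fst_unique h0 h1).2; omega), zero_add]
  · intro D _ hD
    rw [if_neg (fun h1 => hD (mom_fst_unique h1 h0).1), if_neg (fun h1 => hD (mom_fst_unique h1 h0).1), add_zero]
  · intro hD
    exact absurd (Finset.mem_powerset.2 hok.sub) hD

open Classical in
/-- no first domain: the sum over `(D, e)` vanishes -/
theorem mom_fst_part0 {F : Finset TV} {t : ℤ} {z : TV} {h : TV → ℤ} (G : Finset TV → ℤ → ℝ) (hn : ∀ D e, ¬ MomFst F t z D e h) :
    ∑ D ∈ F.powerset, ((if MomFst F t z D 1 h then G D 1 else 0) + (if MomFst F t z D (-1) h then G D (-1) else 0)) = 0 :=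
  Finset.sum_eq_zero fun D _ => by rw [if_neg (hn D 1), if_neg (hn D (-1)), add_zero]

/-- mean of one height at a flat trace -/
theorem mom_mean_flat {x : ℝ} (hx : 0 < x) (A : Finset TV) (e : ℤ) (u : TV) : htE x A (fun _ => 0 + e) (fun h => (h u : ℝ)) = e := by
  have h1 := ht_E_shift x A 0 e (fun h => (h u : ℝ))
  have e1 : (fun v : TV => (0 : TV → ℤ) v + e) = fun _ => 0 + e := rfl
  rw [e1] at h1
  rw [h1]
  have e2 : (fun h : TV → ℤ => (((h u + e : ℤ)) : ℝ)) = fun h => (h u : ℝ) + (fun _ => (e : ℝ)) h := by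
    funext h
    push_cast
    rfl
  rw [e2, ht_E_add, mom_mean_zero, ht_E_const hx (ht_adm_zero A), zero_add]

/-- second moment at a flat trace `± 1` -/
theorem mom_cov_flat {x : ℝ} (hx : 0 < x) (A : Finset TV) {e : ℤ} (he : e = 1 ∨ e = -1) (u v : TV) :
    htE x A (fun _ => 0 + e) (fun h => (h u : ℝ) * (h v : ℝ)) = 1 + htE x A 0 (fun h => (h u : ℝ) * (h v : ℝ)) := by
  have h1 := ht_E_shift x A 0 e (fun h => (h u : ℝ) * (h v : ℝ))
  have e1 : (fun v : TV => (0 : TV → ℤ) v + e) = fun _ => 0 + e := rfl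
  rw [e1] at h1
  rw [h1]
  have hee : (e : ℝ) * e = 1 := by rcases he with rfl | rfl <;> norm_num
  have e2 : (fun h : TV → ℤ => (((h u + e : ℤ)) : ℝ) * (((h v + e : ℤ)) : ℝ))
      = fun h => ((h u : ℝ) * (h v : ℝ) + (e : ℝ) * (h u : ℝ)) + ((e : ℝ) * (h v : ℝ) + (fun _ => (1 : ℝ)) h) := by
    funext h
    push_cast
    show _ = ((h u : ℝ) * (h v : ℝ) + (e : ℝ) * (h u : ℝ)) + ((e : ℝ) * (h v : ℝ) + 1)
    rw [← hee]
    ring
  rw [e2, ht_E_add, ht_E_add, ht_E_add, ht_E_smul, ht_E_smul, mom_mean_zero, mom_mean_zero, ht_E_const hx (ht_adm_zero A)]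
  ring

/-- **recursion for the covariance** -/
theorem mom_cov_rec {x : ℝ} (hx : 0 < x) {F : Finset TV} (hF : MomCo F) (z w : TV) :
    htE x F 0 (fun h => (h z : ℝ) * (h w : ℝ)) =
      ∑ D ∈ F.powerset, momP x z F D * (if w ∈ D then 1 + htE x (latInt D) 0 (fun h => (h z : ℝ) * (h w : ℝ)) else 0) := by
  classical
  have key : ∀ D : Finset TV, momP x z F D * (if w ∈ D then 1 + htE x (latInt D) 0 (fun h => (h z : ℝ) * (h w : ℝ)) else 0)
      = htE x F (fun _ => 0) (fun h => (if MomFst F 0 z D 1 h then (h z : ℝ) * (h w : ℝ) else 0)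
          + (if MomFst F 0 z D (-1) h then (h z : ℝ) * (h w : ℝ) else 0)) := by
    intro D
    by_cases hz : z ∈ D
    · by_cases hw : w ∈ D
      · have hl : HtLoc D (fun h => (h z : ℝ) * (h w : ℝ)) := fun h h' hhh => by
          show (h z : ℝ) * (h w : ℝ) = (h' z : ℝ) * (h' w : ℝ)
          rw [hhh z hz, hhh w hw]
        rw [ht_E_add, mom_step_in hx hF 0 z D (Or.inl rfl) _ hl, mom_step_in hx hF 0 z D (Or.inr rfl) _ hl,
          mom_cov_flat hx _ (Or.inl rfl), mom_cov_flat hx _ (Or.inr rfl), if_pos hw]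
        ring
      · have hl : HtLoc D (fun h => (h z : ℝ)) := fun h h' hhh => by
          show (h z : ℝ) = (h' z : ℝ)
          rw [hhh z hz]
        have ho : HtOff D (fun h => (h w : ℝ)) := fun h h' hhh => by
          show (h w : ℝ) = (h' w : ℝ)
          rw [hhh w hw]
        rw [ht_E_add, exit_dis_first x hx F 0 z D 1 hF (Or.inl rfl) _ _ hl ho,
          exit_dis_first x hx F 0 z D (-1) hF (Or.inr rfl) _ _ hl ho, mom_mean_flat hx, mom_mean_flat hx, if_neg hw]
        push_cast
        ring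
    · have e0 : momP x z F D = 0 := by
        unfold momP htP
        refine (ht_E_congr x F 0 fun h _ => if_neg ?_).trans (ht_E_zero x F 0)
        rintro ⟨e, he⟩
        exact hz he.1
      rw [e0, zero_mul]
      refine ((ht_E_congr x F _ fun h _ => ?_).trans (ht_E_zero x F _)).symm
      rw [if_neg (fun h1 : MomFst F 0 z D 1 h => hz h1.1), if_neg (fun h1 : MomFst F 0 z D (-1) h => hz h1.1), add_zero]
  rw [Finset.sum_congr rfl fun D _ => key D, ← ht_E_sum]
  refine ht_E_congr x F _ fun h hh => ?_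
  have hh' : HtAdm F (fun _ => (0 : ℤ)) h := hh
  by_cases hex : ∃ D e, MomFst F 0 z D e h
  · obtain ⟨D0, e0, h0⟩ := hex
    rw [mom_fst_part (t := 0) hF hh' (fun _ _ => (h z : ℝ) * (h w : ℝ)) h0]
  · rw [mom_fst_part0 (t := 0) (fun _ _ => (h z : ℝ) * (h w : ℝ)) (fun D e h1 => hex ⟨D, e, h1⟩),
      mom_fst_none (t := 0) hF hh' (fun D e h1 => hex ⟨D, e, h1⟩)]
    simp

/-- the covariance vanishes if `w` is not free -/
theorem mom_cov_off (x : ℝ) {F : Finset TV} (z : TV) {w : TV} (hw : w ∉ F) : htE x F 0 (fun h => (h z : ℝ) * (h w : ℝ)) = 0 := by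
  rw [← ht_E_zero x F 0]
  refine ht_E_congr x F 0 fun H hH => ?_
  rw [hH.1 w hw]; simp

/-- FKG: the covariance is nonnegative -/
theorem mom_cov_nonneg {x : ℝ} (hx : 0 < x) (hx2 : x ≤ 1) (F : Finset TV) (z w : TV) : 0 ≤ htE x F 0 (fun h => (h z : ℝ) * (h w : ℝ)) := by
  have h := hto_fkg hx hx2 F 0 ⟨0, ht_adm_zero F⟩ (F := fun h => (h z : ℝ)) (G := fun h => (h w : ℝ))
    (fun h h' hh => by show ((h z : ℤ) : ℝ) ≤ ((h' z : ℤ) : ℝ); exact_mod_cast hh z)
    (fun h h' hh => by show ((h w : ℤ) : ℝ) ≤ ((h' w : ℤ) : ℝ); exact_mod_cast hh w)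
  rwa [mom_mean_zero, zero_mul] at h

open Classical in
/-- **(C1)** the covariance of a flat problem is at most the expected number of common nested domains -/
theorem mom_cov_le_S {x : ℝ} (hx : 0 < x) (z w : TV) (F : Finset TV) (hF : MomCo F) :
    htE x F 0 (fun h => (h z : ℝ) * (h w : ℝ)) ≤ momS (momKer x z) (fun D => if w ∈ D then 1 else 0) F.card F := by
  refine mom_rc_sub (mom_ker_ok hx z) (c := fun F => htE x F 0 (fun h => (h z : ℝ) * (h w : ℝ))) ?_ F.card F hF le_rfl
  intro G hG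
  show htE x G 0 (fun h => (h z : ℝ) * (h w : ℝ)) ≤ _
  rw [mom_cov_rec hx hG z w, mom_ker_sum]
  refine le_of_eq (Finset.sum_congr rfl fun D _ => ?_)
  congr 1
  by_cases hw : w ∈ D
  · simp only [hw, if_true]; rfl
  · simp only [hw, if_false, zero_add]
    exact (mom_cov_off x z (fun h => hw (lat_int_sub D h))).symm

/-! ## 5. Pattern, obstruction, shells -/

/-- probability that the residue walk from `t` completes the pattern within `k` steps; `s = true`: the W-wall with `B = +` has been seen -/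
noncomputable def momF : ℕ → ℤ → Bool → ℝ
  | 0, _, _ => 0
  | k + 1, t, false =>
      1 / 2 * ((if momB t ∧ momB (t + 1) then momF k (t + 1) true else momF k (t + 1) false) +
        (if momB t ∧ momB (t + -1) then momF k (t + -1) true else momF k (t + -1) false))
  | k + 1, t, true =>
      1 / 2 * ((if (momB t ↔ momB (t + 1)) then momF k (t + 1) true else 1) + (if (momB t ↔ momB (t + -1)) then momF k (t + -1) true else 1))

theorem mom_F_true (k : ℕ) (t : ℤ) : 1 - momF k t true = (1 / 2) ^ k := by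
  induction k generalizing t with
  | zero => simp [momF]
  | succ k ih =>
    have h4 : t % 4 = 0 ∨ t % 4 = 1 ∨ t % 4 = 2 ∨ t % 4 = 3 := by omega
    have ih1 := ih (t + 1)
    have ih2 := ih (t + -1)
    rw [momF, pow_succ]
    rcases h4 with h | h | h | h
    · have b0 : momB t := by unfold momB; omega
      have b1 : momB (t + 1) := by unfold momB; omega
      have b2 : ¬ momB (t + -1) := by unfold momB; omega
      rw [if_pos (iff_of_true b0 b1), if_neg (fun h => b2 (h.1 b0))]
      linarith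
    · have b0 : momB t := by unfold momB; omega
      have b1 : ¬ momB (t + 1) := by unfold momB; omega
      have b2 : momB (t + -1) := by unfold momB; omega
      rw [if_neg (fun h => b1 (h.1 b0)), if_pos (iff_of_true b0 b2)]
      linarith
    · have b0 : ¬ momB t := by unfold momB; omega
      have b1 : ¬ momB (t + 1) := by unfold momB; omega
      have b2 : momB (t + -1) := by unfold momB; omega
      rw [if_pos (iff_of_false b0 b1), if_neg (fun h => b0 (h.2 b2))]
      linarith
    · have b0 : ¬ momB t := by unfold momB; omega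
      have b1 : momB (t + 1) := by unfold momB; omega
      have b2 : ¬ momB (t + -1) := by unfold momB; omega
      rw [if_neg (fun h => b0 (h.2 b1)), if_pos (iff_of_false b0 b2)]
      linarith

/-- Lyapunov bound: `a_k ≤ 4 (9/10)^k` at residues `0,1`, `b_k ≤ 5 (9/10)^k` at residues `2,3` -/
theorem mom_F_false (k : ℕ) (t : ℤ) : 1 - momF k t false ≤ (if momB t then 4 else 5) * (9 / 10) ^ k := by
  induction k generalizing t with
  | zero => simp only [momF, sub_zero, pow_zero, mul_one]; split_ifs <;> norm_num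
  | succ k ih =>
    have h4 : t % 4 = 0 ∨ t % 4 = 1 ∨ t % 4 = 2 ∨ t % 4 = 3 := by omega
    have ih1 := ih (t + 1)
    have ih2 := ih (t + -1)
    have g1 := mom_F_true k (t + 1)
    have g2 := mom_F_true k (t + -1)
    have hq : ((1 : ℝ) / 2) ^ k ≤ (9 / 10) ^ k := pow_le_pow_left₀ (by norm_num) (by norm_num) k
    have hq0 : (0 : ℝ) < (9 / 10) ^ k := by positivity
    rw [momF, pow_succ]
    rcases h4 with h | h | h | h
    · have b0 : momB t := by unfold momB; omega
      have b1 : momB (t + 1) := by unfold momB; omega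
      have b2 : ¬ momB (t + -1) := by unfold momB; omega
      rw [if_pos ⟨b0, b1⟩, if_neg (fun h => b2 h.2), if_pos b0]
      rw [if_neg b2] at ih2
      linarith
    · have b0 : momB t := by unfold momB; omega
      have b1 : ¬ momB (t + 1) := by unfold momB; omega
      have b2 : momB (t + -1) := by unfold momB; omega
      rw [if_neg (fun h => b1 h.2), if_pos ⟨b0, b2⟩, if_pos b0]
      rw [if_neg b1] at ih1
      linarith
    · have b0 : ¬ momB t := by unfold momB; omega
      have b1 : ¬ momB (t + 1) := by unfold momB; omega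
      have b2 : momB (t + -1) := by unfold momB; omega
      rw [if_neg (fun h => b0 h.1), if_neg (fun h => b0 h.1), if_neg b0]
      rw [if_neg b1] at ih1
      rw [if_pos b2] at ih2
      linarith
    · have b0 : ¬ momB t := by unfold momB; omega
      have b1 : momB (t + 1) := by unfold momB; omega
      have b2 : ¬ momB (t + -1) := by unfold momB; omega
      rw [if_neg (fun h => b0 h.1), if_neg (fun h => b0 h.1), if_neg b0]
      rw [if_pos b1] at ih1
      rw [if_neg b2] at ih2
      linarith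

theorem mom_F_le_one (k : ℕ) (t : ℤ) (s : Bool) : momF k t s ≤ 1 := by
  induction k generalizing t s with
  | zero => simp [momF]
  | succ k ih =>
    have i1 := ih (t + 1) true
    have i2 := ih (t + 1) false
    have i3 := ih (t + -1) true
    have i4 := ih (t + -1) false
    cases s <;> rw [momF] <;> split_ifs <;> linarith

theorem mom_F_nonneg (k : ℕ) (t : ℤ) (s : Bool) : 0 ≤ momF k t s := by
  induction k generalizing t s with
  | zero => simp [momF]
  | succ k ih =>
    have i1 := ih (t + 1) true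
    have i2 := ih (t + 1) false
    have i3 := ih (t + -1) true
    have i4 := ih (t + -1) false
    cases s <;> rw [momF] <;> split_ifs <;> linarith

/-- the walls of a subset of the interior read the heights on `D` only -/
theorem mom_wall_loc {D D' : Finset TV} (hD' : D' ⊆ latInt D) {h h' : TV → ℤ} (hh : ∀ u ∈ D, h u = h' u) :
    (MomBW h D' ↔ MomBW h' D') ∧ (MomWW h D' ↔ MomWW h' D') := by
  have key : ∀ u ∈ D', ∀ v, triAdj u v → h u = h' u ∧ h v = h' v := by
    intro u hu v huv
    have h1 := lat_mem_int.1 (hD' hu)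
    exact ⟨hh u h1.1, hh v (h1.2 v huv)⟩
  constructor
  · unfold MomBW
    refine forall_congr' fun u => forall_congr' fun hu => forall_congr' fun v => forall_congr' fun _ => forall_congr' fun huv => ?_
    rw [(key u hu v huv).1, (key u hu v huv).2]
  · unfold MomWW
    refine forall_congr' fun u => forall_congr' fun hu => forall_congr' fun v => forall_congr' fun _ => forall_congr' fun huv => ?_
    rw [(key u hu v huv).1, (key u hu v huv).2]

/-- locality of the two bad events of an interior -/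
theorem mom_bad_loc (D : Finset TV) (z : TV) (r : ℕ) {h h' : TV → ℤ} (hh : ∀ u ∈ D, h u = h' u) :
    (MomBad (latInt D) z r h ↔ MomBad (latInt D) z r h') ∧ (MomBad1 (latInt D) z r h ↔ MomBad1 (latInt D) z r h') := by
  have b1 : ∀ E : Finset TV, E ⊆ latInt D → (MomBad1 E z r h ↔ MomBad1 E z r h') := by
    intro E hE
    unfold MomBad1
    refine exists_congr fun D' => and_congr_right fun _ => and_congr_right_iff.2 fun hs => ?_
    exact (mom_wall_loc (hs.trans hE) hh).1
  refine ⟨?_, b1 _ subset_rfl⟩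
  unfold MomBad
  refine exists_congr fun E => and_congr_right_iff.2 fun hE => and_congr_right fun _ => ?_
  rw [(mom_wall_loc hE hh).2, b1 E hE]

/-- the heights on the two sides of an edge which leaves a first domain -/
theorem mom_fst_edge {F : Finset TV} {t : ℤ} {z : TV} {D : Finset TV} {e : ℤ} {h : TV → ℤ} (hF : MomCo F)
    (hh : HtAdm F (fun _ => t) h) (h1 : MomFst F t z D e h) {u v : TV} (hu : u ∈ D) (hv : v ∉ D) (huv : triAdj u v) :
    h u = t + e ∧ h v = t := by
  have hv' : v ∈ latOut D := by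
    unfold latOut
    rw [Finset.mem_sdiff, Finset.mem_biUnion]
    exact ⟨⟨u, hu, lat_mem_nb.2 huv⟩, hv⟩
  exact ⟨h1.2.2 u (lat_mem_bd.2 ⟨hu, v, huv, hv⟩), (mom_fst_ok hF hh h1).2.2 v hv'⟩

theorem mom_bad1_mono {E F : Finset TV} (hEF : E ⊆ F) {z : TV} {r : ℕ} {h : TV → ℤ} (hb : MomBad1 E z r h) : MomBad1 F z r h := by
  obtain ⟨D', h1, h2, h3⟩ := hb
  exact ⟨D', h1, h2.trans hEF, h3⟩

theorem mom_bad_mono {E F : Finset TV} (hEF : E ⊆ F) {z : TV} {r : ℕ} {h : TV → ℤ} (hb : MomBad E z r h) : MomBad F z r h := by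
  obtain ⟨D, h1, h2⟩ := hb
  exact ⟨D, h1.trans hEF, h2⟩

/-- one step of the induction of `mom_pattern` in kernel form -/
theorem mom_pat_step {x : ℝ} (hx : 0 < x) {F : Finset TV} (hF : MomCo F) (t : ℤ) (z : TV) (K : (TV → ℤ) → Prop)
    (K' : Finset TV → ℤ → (TV → ℤ) → Prop)
    (hloc : ∀ D e h h', (∀ u ∈ D, h u = h' u) → (K' D e h ↔ K' D e h'))
    (himp : ∀ D e h, HtAdm F (fun _ => t) h → MomFst F t z D e h → K' D e h → K h) (c : ℝ) (q : Finset TV → ℝ)
    (hq : ∀ D, MomOk F z D →
      c * q D ≤ 1 / 2 * (htP x (latInt D) (fun _ => t + 1) (K' D 1) + htP x (latInt D) (fun _ => t + -1) (K' D (-1)))) :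
    c * ∑ D ∈ (momKer x z).ch F, (momKer x z).p F D * q D ≤ htP x F (fun _ => t) K := by
  refine le_trans ?_ (mom_step_lb hx hF t z K K' hloc himp)
  rw [mom_ker_sum, Finset.mul_sum]
  refine Finset.sum_le_sum fun D hD => ?_
  have h1 := mul_le_mul_of_nonneg_left (hq D (mom_ch_ok hx hF hD)) ((mom_ker_ok hx z).p_nn F D)
  calc c * ((momKer x z).p F D * q D) = (momKer x z).p F D * (c * q D) := by ring
    _ ≤ _ := h1

/-- **(C2)** the pattern among the first `k` nested domains around `latBall z r` forces the bad event.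
Induction on `k` with `mom_step_lb`:  stage `false`: `K' D e := latBall z r ⊆ D ∧ (if momB t ∧ momB (t+e) then MomBad1 (latInt D) z r else MomBad (latInt D) z r)`;
stage `true`: `K' D e := latBall z r ⊆ D ∧ ((momB t ↔ momB (t+e)) → MomBad1 (latInt D) z r)`. -/
theorem mom_pattern {x : ℝ} (hx : 0 < x) (z : TV) (r k : ℕ) :
    ∀ (F : Finset TV) (t : ℤ), MomCo F →
      momF k t false * momQ (momKer x z) (r + 1) k F ≤ htP x F (fun _ => t) (MomBad F z r) ∧
      momF k t true * momQ (momKer x z) (r + 1) k F ≤ htP x F (fun _ => t) (MomBad1 F z r) := by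
  induction k with
  | zero =>
    intro F t _
    simp only [momF, zero_mul]
    exact ⟨ht_P_nonneg hx _ _ _, ht_P_nonneg hx _ _ _⟩
  | succ k ih =>
    intro F t hF
    have hQ0 : ∀ G, 0 ≤ momQ (momKer x z) (r + 1) k G := mom_rc_Q_nonneg (mom_ker_ok hx z) (r + 1) k
    have hQ1 : ∀ G, momQ (momKer x z) (r + 1) k G ≤ 1 := mom_rc_Q_le_one (mom_ker_ok hx z) (r + 1) k
    constructor
    · -- stage `false`
      rw [mom_rc_Q_succ]
      refine mom_pat_step hx hF t z (MomBad F z r)
        (fun D e h => if momB t ∧ momB (t + e) then MomBad1 (latInt D) z r h else MomBad (latInt D) z r h) ?_ ?_ _ _ ?_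
      · intro D e h h' hh
        by_cases hb : momB t ∧ momB (t + e)
        · simp only [if_pos hb]; exact (mom_bad_loc D z r hh).2
        · simp only [if_neg hb]; exact (mom_bad_loc D z r hh).1
      · intro D e h hh hf hK
        obtain ⟨hok, he, _⟩ := mom_fst_ok hF hh hf
        by_cases hb : momB t ∧ momB (t + e)
        · simp only [if_pos hb] at hK
          refine ⟨D, hok.sub, hok.co, fun u hu v hv huv => ?_, mom_bad1_mono (lat_int_sub D) hK⟩
          obtain ⟨e1, e2⟩ := mom_fst_edge hF hh hf hu hv huv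
          rw [e1, e2]
          exact ⟨hb.2, hb.1, by rcases he with rfl | rfl <;> omega⟩
        · simp only [if_neg hb] at hK
          exact mom_bad_mono ((lat_int_sub D).trans hok.sub) hK
      · intro D hok
        have key : ∀ e : ℤ, (if momB t ∧ momB (t + e) then momF k (t + e) true else momF k (t + e) false) *
            momQ (momKer x z) (r + 1) k (latInt D) ≤ htP x (latInt D) (fun _ => t + e)
              (fun h => if momB t ∧ momB (t + e) then MomBad1 (latInt D) z r h else MomBad (latInt D) z r h) := by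
          intro e
          by_cases hb : momB t ∧ momB (t + e)
          · simp only [if_pos hb]; exact (ih (latInt D) (t + e) hok.coI).2
          · simp only [if_neg hb]; exact (ih (latInt D) (t + e) hok.coI).1
        have k1 := key 1
        have k2 := key (-1)
        by_cases hr : r + 1 ≤ (momKer x z).rad D
        · rw [if_pos hr, momF]
          show _ * momQ (momKer x z) (r + 1) k (latInt D) ≤ _
          linarith
        · rw [if_neg hr, mul_zero]
          have := ht_P_nonneg hx (latInt D) (fun _ => t + 1)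
            (fun h => if momB t ∧ momB (t + 1) then MomBad1 (latInt D) z r h else MomBad (latInt D) z r h)
          have := ht_P_nonneg hx (latInt D) (fun _ => t + -1)
            (fun h => if momB t ∧ momB (t + -1) then MomBad1 (latInt D) z r h else MomBad (latInt D) z r h)
          linarith
    · -- stage `true`
      rw [mom_rc_Q_succ]
      refine mom_pat_step hx hF t z (MomBad1 F z r)
        (fun D e h => latBall z r ⊆ D ∧ ((momB t ↔ momB (t + e)) → MomBad1 (latInt D) z r h)) ?_ ?_ _ _ ?_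
      · intro D e h h' hh
        rw [(mom_bad_loc D z r hh).2]
      · intro D e h hh hf hK
        obtain ⟨hok, he, _⟩ := mom_fst_ok hF hh hf
        by_cases hb : (momB t ↔ momB (t + e))
        · exact mom_bad1_mono ((lat_int_sub D).trans hok.sub) (hK.2 hb)
        · refine ⟨D, hK.1, hok.sub, fun u hu v hv huv => ?_⟩
          obtain ⟨e1, e2⟩ := mom_fst_edge hF hh hf hu hv huv
          rw [e1, e2]
          exact fun hc => hb hc.symm
      · intro D hok
        by_cases hr : r + 1 ≤ (momKer x z).rad D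
        · have hball : latBall z r ⊆ D := mom_lt_rad.1 hr
          have key : ∀ e : ℤ, (if (momB t ↔ momB (t + e)) then momF k (t + e) true else 1) *
              momQ (momKer x z) (r + 1) k (latInt D) ≤ htP x (latInt D) (fun _ => t + e)
                (fun h => latBall z r ⊆ D ∧ ((momB t ↔ momB (t + e)) → MomBad1 (latInt D) z r h)) := by
            intro e
            by_cases hb : (momB t ↔ momB (t + e))
            · rw [if_pos hb]
              refine ((ih (latInt D) (t + e) hok.coI).2).trans (le_of_eq ?_)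
              exact ht_P_congr x _ _ fun H _ => ⟨fun h => ⟨hball, fun _ => h⟩, fun h => h.2 hb⟩
            · rw [if_neg hb, one_mul, ht_P_true hx (mom_adm_const (latInt D) (t + e)) fun _ _ => ⟨hball, fun h => absurd h hb⟩]
              exact hQ1 _
          have k1 := key 1
          have k2 := key (-1)
          rw [if_pos hr, momF]
          show _ * momQ (momKer x z) (r + 1) k (latInt D) ≤ _
          linarith
        · rw [if_neg hr, mul_zero]
          have := ht_P_nonneg hx (latInt D) (fun _ => t + 1)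
            (fun h => latBall z r ⊆ D ∧ ((momB t ↔ momB (t + 1)) → MomBad1 (latInt D) z r h))
          have := ht_P_nonneg hx (latInt D) (fun _ => t + -1)
            (fun h => latBall z r ⊆ D ∧ ((momB t ↔ momB (t + -1)) → MomBad1 (latInt D) z r h))
          linarith

/-- **(C3a)** a fixed number of further domains around the ball has probability `≤ ρ < 1` -/
theorem mom_Q_rho (x : ℝ) (hx1 : 1 / Real.sqrt 2 ≤ x) (hx2 : x ≤ 1) :
    ∃ (ρ : ℝ) (k0 r0 : ℕ), ρ < 1 ∧ ∀ (F : Finset TV) (z : TV) (r : ℕ), MomCo F → r0 ≤ r → momRad z F ≤ 5 * r →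
      momQ (momKer x z) (r + 1) k0 F ≤ ρ := by
  have hx : 0 < x := lt_of_lt_of_le (by positivity) hx1
  obtain ⟨κ0, r0, hκ0, hob⟩ := exit_dis_obstr x hx1 hx2
  obtain ⟨κ, hκ, hκ1, hκ2⟩ : ∃ κ : ℝ, 0 < κ ∧ κ ≤ 1 ∧ κ ≤ κ0 := ⟨min κ0 1, lt_min hκ0 one_pos, min_le_right _ _, min_le_left _ _⟩
  obtain ⟨k0, hk0⟩ := exists_pow_lt_of_lt_one (show (0 : ℝ) < κ / 10 by positivity) (show (9 / 10 : ℝ) < 1 by norm_num)
  have hF0 : 1 - κ / 2 ≤ momF k0 0 false := by
    have h1 := mom_F_false k0 0
    have h2 : (if momB 0 then (4 : ℝ) else 5) ≤ 5 := by split_ifs <;> norm_num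
    have h3 : (0 : ℝ) ≤ (9 / 10) ^ k0 := by positivity
    have h4 := mul_le_mul_of_nonneg_right h2 h3
    linarith
  have hpos : 0 < 1 - κ / 2 := by linarith
  refine ⟨(1 - κ) / (1 - κ / 2), k0, r0, by rw [div_lt_one hpos]; linarith, fun F z r hF hr hrad => ?_⟩
  have h1 := (mom_pattern hx z r k0 F 0 hF).1
  have h2 := hob F 0 z r hF hr (mom_rad_le.1 hrad)
  have hQ0 := mom_rc_Q_nonneg (mom_ker_ok hx z) (r + 1) k0 F
  rw [le_div_iff₀ hpos]
  have h3 := mul_le_mul_of_nonneg_right hF0 hQ0
  linarith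

open Classical in
/-- **(C3) = TEX[lem:shell-moments]** (first moment form): the expected number of nested domains with `d ≤ momRad z D < 2 d` is bounded, for every hole-free `F` -/
theorem mom_shell (x : ℝ) (hx1 : 1 / Real.sqrt 2 ≤ x) (hx2 : x ≤ 1) :
    ∃ (K : ℝ) (d0 : ℕ), 0 ≤ K ∧ ∀ (z : TV) (d n : ℕ) (F : Finset TV), MomCo F → d0 ≤ d →
      momS (momKer x z) (fun D => if momShell (momKer x z) d D then 1 else 0) n F ≤ K := by
  have hx : 0 < x := lt_of_lt_of_le (by positivity) hx1
  obtain ⟨ρ, k0, r0, hρ1, hρ⟩ := mom_Q_rho x hx1 hx2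
  have h1ρ : 0 < 1 - ρ := by linarith
  refine ⟨1 + k0 / (1 - ρ), max r0 1 + 1, by positivity, fun z d n F hF hd => ?_⟩
  obtain ⟨r, rfl⟩ : ∃ r, d = r + 1 := ⟨d - 1, by omega⟩
  have hr0 : r0 ≤ r := (le_max_left r0 1).trans (by omega)
  have hr1 : 1 ≤ r := (le_max_right r0 1).trans (by omega)
  refine mom_rc_shell (mom_ker_ok hx z) (r + 1) k0 hρ1 (fun G hG hR => hρ G z r hG hr0 ?_) n F hF
  have h2 : momRad z G ≤ 2 * (r + 1) := hR
  omega

/-! ## 6. Small scales -/

/-- a set which contains `z` but not the whole ball has a boundary site in the ball -/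
theorem mom_ball_bd {z : TV} {R : ℕ} {D : Finset TV} (hz : z ∈ D) (hD : ¬ latBall z R ⊆ D) : ∃ u ∈ latBd D, u ∈ latBall z R := by
  obtain ⟨q, hq, hqD⟩ := Finset.not_subset.1 hD
  have hzB : z ∈ (↑(latBall z R) : Set TV) := Finset.mem_coe.2 (plh_ball_self z R)
  have hpath : TscR tscG (↑(latBall z R) : Set TV) z q := plh_ball_conn z R z hzB q (Finset.mem_coe.2 hq)
  have key : ∀ b, TscR tscG (↑(latBall z R) : Set TV) z b → b ∉ D → ∃ u ∈ latBd D, u ∈ latBall z R := by
    intro b hb
    induction hb with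
    | refl => exact fun h => absurd hz h
    | @tail b' b _ hs ih =>
      intro hbD
      by_cases hb' : b' ∈ D
      · exact ⟨b', lat_mem_bd.2 ⟨hb', b, hs.1, hbD⟩, Finset.mem_coe.1 hs.2.1⟩
      · exact ih hb'
  exact key q hpath hqD

open Classical in
/-- **(C4)** deterministic bound: every nested domain which does not contain `latBall z R` deletes a site of the ball -/
theorem mom_small {x : ℝ} (hx : 0 < x) (z : TV) (R n : ℕ) (F : Finset TV) :
    momS (momKer x z) (fun D => if momRad z D ≤ R then 1 else 0) n F ≤ ((latBall z R).card : ℝ) := by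
  have h := mom_rc_pot (mom_ker_ok hx z) (χ := fun D => momRad z D ≤ R) (fun F => (F ∩ latBall z R).card) ?_ ?_ n F
  · have e : (fun D => if momRad z D ≤ R then (1 : ℝ) else 0) = (fun D => @ite ℝ (momRad z D ≤ R) (Classical.propDecidable _) 1 0) := by
      funext D; congr
    rw [e]
    refine h.trans ?_
    exact_mod_cast Finset.card_le_card Finset.inter_subset_right
  · intro F D hD
    exact Finset.card_le_card (Finset.inter_subset_inter_right ((lat_int_sub D).trans (mom_mem_ch.1 hD).1))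
  · intro F D hD hχ
    obtain ⟨u, hu1, hu2⟩ := mom_ball_bd (mom_P_mem (mom_mem_ch.1 hD).2) (mom_rad_le.1 hχ)
    show (latInt D ∩ latBall z R).card + 1 ≤ (F ∩ latBall z R).card
    rw [Nat.succ_le_iff]
    refine Finset.card_lt_card ⟨Finset.inter_subset_inter_right ((lat_int_sub D).trans (mom_mem_ch.1 hD).1), fun hsub => ?_⟩
    have h1 : u ∈ F ∩ latBall z R := Finset.mem_inter.2 ⟨(mom_mem_ch.1 hD).1 (lat_bd_sub D hu1), hu2⟩
    have h2 := (Finset.mem_inter.1 (hsub h1)).1
    rw [lat_int_eq, Finset.mem_sdiff] at h2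
    exact h2.2 hu1

/-! ## 7. Arms -/

/-- a domain with the property `χ` bounded by ONE level line -/
def MomArm (F : Finset TV) (χ : Finset TV → Prop) (h : TV → ℤ) : Prop :=
  ∃ D : Finset TV, D ⊆ F ∧ TscConn tscG (D : Set TV) ∧ MomCo D ∧ χ D ∧
    ∃ c e : ℤ, (e = 1 ∨ e = -1) ∧ (∀ v ∈ latOut D, h v = c) ∧ ∀ u ∈ latBd D, h u = c + e

theorem mom_arm_add (F : Finset TV) (χ : Finset TV → Prop) (t : ℤ) (h : TV → ℤ) : MomArm F χ (fun u => h u + t) ↔ MomArm F χ h := by
  unfold MomArm
  refine exists_congr fun D => and_congr_right fun _ => and_congr_right fun _ => and_congr_right fun _ => and_congr_right fun _ => ?_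
  constructor
  · rintro ⟨c, e, he, h1, h2⟩
    exact ⟨c - t, e, he, fun v hv => by have := h1 v hv; dsimp only at this; omega, fun u hu => by have := h2 u hu; dsimp only at this; omega⟩
  · rintro ⟨c, e, he, h1, h2⟩
    exact ⟨c + t, e, he, fun v hv => by have := h1 v hv; dsimp only; omega, fun u hu => by have := h2 u hu; dsimp only; omega⟩

/-- the arm event does not see the additive constant -/
theorem mom_arm_shift (x : ℝ) (F : Finset TV) (χ : Finset TV → Prop) (t : ℤ) :
    htP x F (fun _ => t) (MomArm F χ) = htP x F 0 (MomArm F χ) := by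
  classical
  have h1 := ht_E_shift x F 0 t (fun h => if MomArm F χ h then (1 : ℝ) else 0)
  have e1 : (fun u : TV => (0 : TV → ℤ) u + t) = fun _ => t := by funext u; simp
  rw [e1] at h1
  unfold htP
  rw [h1]
  refine ht_E_congr x F 0 fun h _ => ?_
  simp only [mom_arm_add]

/-- membership in the outer boundary -/
theorem mom_mem_out {A : Finset TV} {v : TV} : v ∈ latOut A ↔ v ∉ A ∧ ∃ u ∈ A, triAdj u v := by
  unfold latOut
  rw [Finset.mem_sdiff, Finset.mem_biUnion]
  constructor
  · rintro ⟨⟨u, hu, huv⟩, hv⟩; exact ⟨hv, u, hu, lat_mem_nb.1 huv⟩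
  · rintro ⟨hv, u, hu, huv⟩; exact ⟨⟨u, hu, lat_mem_nb.2 huv⟩, hv⟩

/-- one direction of the locality of the arm event -/
theorem mom_arm_loc_aux (D : Finset TV) (χ : Finset TV → Prop) {h h' : TV → ℤ} (hh : ∀ u ∈ D, h u = h' u)
    (hA : MomArm (latInt D) χ h) : MomArm (latInt D) χ h' := by
  obtain ⟨D', hsub, hconn, hco, hχ, c, e, he, hout, hbd⟩ := hA
  refine ⟨D', hsub, hconn, hco, hχ, c, e, he, fun v hv => ?_, fun u hu => ?_⟩
  · obtain ⟨_, u, hu, huv⟩ := mom_mem_out.1 hv
    rw [← hh v ((lat_mem_int.1 (hsub hu)).2 v huv)]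
    exact hout v hv
  · rw [← hh u (lat_int_sub D (hsub (lat_bd_sub D' hu)))]
    exact hbd u hu

/-- locality of the arm event of an interior -/
theorem mom_arm_loc (D : Finset TV) (χ : Finset TV → Prop) {h h' : TV → ℤ} (hh : ∀ u ∈ D, h u = h' u) :
    MomArm (latInt D) χ h ↔ MomArm (latInt D) χ h' := by
  exact ⟨mom_arm_loc_aux D χ hh, mom_arm_loc_aux D χ fun u hu => (hh u hu).symm⟩

open Classical in
/-- **(C5b)** the probability of the arm event is a super-solution of the hitting recursion (`mom_step_lb` with `K' D e := χ D ∨ MomArm (latInt D) χ`) -/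
theorem mom_arm_super {x : ℝ} (hx : 0 < x) (z : TV) (χ : Finset TV → Prop) (F : Finset TV) (hF : MomCo F) :
    ∑ D ∈ (momKer x z).ch F, (momKer x z).p F D * (if χ D then 1 else htP x (latInt D) 0 (MomArm (latInt D) χ)) ≤ htP x F 0 (MomArm F χ) := by
  have h1 := mom_step_lb hx hF 0 z (MomArm F χ) (fun D _ h => χ D ∨ MomArm (latInt D) χ h)
    (fun D e h h' hh => or_congr_right (mom_arm_loc D χ hh))
    (fun D e h hh hf hK => by
      obtain ⟨hok, he, hout⟩ := mom_fst_ok hF hh hf
      rcases hK with hK | ⟨D', hsub, hrest⟩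
      · exact ⟨D, hok.sub, hok.conn, hok.co, hK, 0, e, he, hout, hf.2.2⟩
      · exact ⟨D', hsub.trans ((lat_int_sub D).trans hok.sub), hrest⟩)
  rw [← mom_ker_sum]
  refine le_trans (le_of_eq (Finset.sum_congr rfl fun D _ => ?_)) h1
  congr 1
  have key : ∀ t : ℤ, htP x (latInt D) (fun _ => t) (fun h => χ D ∨ MomArm (latInt D) χ h)
      = if χ D then 1 else htP x (latInt D) 0 (MomArm (latInt D) χ) := by
    intro t
    by_cases hχ : χ D
    · rw [if_pos hχ]
      exact ht_P_true hx (mom_adm_const (latInt D) t) fun _ _ => Or.inl hχ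
    · rw [if_neg hχ, ← mom_arm_shift x (latInt D) χ t]
      exact ht_P_congr x _ _ fun H _ => ⟨fun h => h.resolve_left hχ, Or.inr⟩
  rw [key, key]
  ring

/-- hitting implies the arm event -/
theorem mom_H_le_arm {x : ℝ} (hx : 0 < x) (z : TV) (χ : Finset TV → Prop) (n : ℕ) (F : Finset TV) (hF : MomCo F) :
    momH (momKer x z) χ n F ≤ htP x F 0 (MomArm F χ) :=
  mom_rc_H_le (mom_ker_ok hx z) (e := fun F => htP x F 0 (MomArm F χ)) (fun G hG => mom_arm_super hx z χ G hG)
    (fun G _ => ht_P_nonneg hx _ _ _) n F hF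

/-- a path which starts in `D` and ends off `D` has a step which leaves `D` -/
theorem mom_R_cross {S : Set TV} {D : Finset TV} {a b : TV} (h : TscR tscG S a b) (ha : a ∈ D) (hb : b ∉ D) :
    ∃ u v, TscStep tscG S u v ∧ u ∈ D ∧ v ∉ D := by
  induction h with
  | refl => exact absurd ha hb
  | @tail p q hap hpq ih =>
    by_cases hp : p ∈ D
    · exact ⟨p, q, hpq, hp, hb⟩
    · exact ih hp

/-- a finite set misses a site -/
theorem mom_exists_off (A : Finset TV) : ∃ b : TV, b ∉ A := Infinite.exists_notMem_finset A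

/-- a blocking connected set of the annulus contains an edge which leaves the domain of the arm -/
theorem mom_circ_edge {z w : TV} {r1 r2 : ℕ} {D : Finset TV} {S : Set TV} (hw : w ∉ latBall z r2) (hconn : TscConn tscG (D : Set TV))
    (hco : MomCo D) (hz : z ∈ D) (hwD : w ∈ D) (hn : ¬ latBall z r1 ⊆ D) (hS : TscConn tscG S)
    (hblock : ∀ (Q : Set TV) (a b : TV), a ∈ latBall z r1 → b ∉ latBall z r2 → TscR tscG Q a b → (Q ∩ S).Nonempty) :
    ∃ u v, u ∈ S ∧ v ∈ S ∧ u ∈ latBd D ∧ v ∈ latOut D := by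
  have hzb : z ∈ latBall z r1 := by rw [lat_mem_ball]; simp [latN]
  obtain ⟨s1, hs1D, hs1S⟩ := hblock (D : Set TV) z w hzb hw (hconn z (Finset.mem_coe.2 hz) w (Finset.mem_coe.2 hwD))
  obtain ⟨a0, ha0, ha0D⟩ := Finset.not_subset.1 hn
  obtain ⟨b, hb⟩ := mom_exists_off (D ∪ latBall z r2)
  rw [Finset.mem_union, not_or] at hb
  obtain ⟨s2, hs2D, hs2S⟩ := hblock ((D : Set TV)ᶜ) a0 b ha0 hb.2
    (hco a0 (by simpa using ha0D) b (by simpa using hb.1))
  obtain ⟨u, v, hst, hu, hv⟩ := mom_R_cross (hS s1 hs1S s2 hs2S) (Finset.mem_coe.1 hs1D) (by simpa using hs2D)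
  exact ⟨u, v, hst.2.1, hst.2.2, lat_mem_bd.2 ⟨hu, v, hst.1, hv⟩, mom_mem_out.2 ⟨hv, u, hu, hst.1⟩⟩

/-- **(C5c)** deterministic: a level line around `z` and `w` which enters `latBall z r1` crosses every blocking set of the annulus: one of the two colours has no circuit -/
theorem mom_arm_circ {F : Finset TV} {z w : TV} {r1 r2 : ℕ} {h : TV → ℤ} (hw : w ∉ latBall z r2)
    (hA : MomArm F (fun D => z ∈ D ∧ w ∈ D ∧ ¬ latBall z r1 ⊆ D) h) :
    ¬ MomCirc z r1 r2 h ∨ ¬ MomCirc z r1 r2 (fun u => h u + 1) := by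
  obtain ⟨D, _, hconn, hco, ⟨hz, hwD, hn⟩, c, e, he, hout, hbd⟩ := hA
  by_contra hcon
  rw [not_or, not_not, not_not] at hcon
  obtain ⟨⟨S, _, hS, hsp, hbl⟩, ⟨S', _, hS', hsp', hbl'⟩⟩ := hcon
  obtain ⟨u, v, hu, hv, hub, hvo⟩ := mom_circ_edge hw hconn hco hz hwD hn hS hbl
  obtain ⟨u', v', hu', hv', hub', hvo'⟩ := mom_circ_edge hw hconn hco hz hwD hn hS' hbl'
  have h1 := hsp u hu v hv
  have h2 := hsp' u' hu' v' hv'
  simp only [] at h2
  rw [hbd u hub, hout v hvo] at h1
  rw [hbd u' hub', hout v' hvo'] at h2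
  unfold momB at h1 h2
  rcases he with rfl | rfl <;> omega

/-- **(C5) = TEX (moments:arm)** -/
theorem mom_arm (x : ℝ) (hx1 : 1 / Real.sqrt 2 ≤ x) (hx2 : x ≤ 1) :
    ∃ (C α : ℝ), 0 < C ∧ 0 < α ∧ ∀ (F : Finset TV) (z w : TV) (r1 r2 : ℕ), MomCo F → 1 ≤ r1 → r1 ≤ r2 → latBall z r2 ⊆ F → w ∉ latBall z r2 →
      htP x F 0 (MomArm F (fun D => z ∈ D ∧ w ∈ D ∧ ¬ latBall z r1 ⊆ D)) ≤ C * ((r1 : ℝ) / r2) ^ α := by
  have hx : 0 < x := lt_of_lt_of_le (by positivity) hx1
  obtain ⟨C, α, hC, hα, H⟩ := exit_dis_stack x hx1 hx2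
  refine ⟨2 * C, α, by positivity, hα, fun F z w r1 r2 hF h1 h12 hsub hw => ?_⟩
  have a1 : htP x F 0 (MomArm F (fun D => z ∈ D ∧ w ∈ D ∧ ¬ latBall z r1 ⊆ D))
      ≤ htP x F 0 (fun h => ¬ MomCirc z r1 r2 h ∨ ¬ MomCirc z r1 r2 (fun u => h u + 1)) :=
    ht_P_mono hx F 0 fun H _ hA => mom_arm_circ hw hA
  have a2 := ht_P_or_le hx F 0 (fun h => ¬ MomCirc z r1 r2 h) (fun h => ¬ MomCirc z r1 r2 (fun u => h u + 1))
  have a3 : htP x F 0 (fun h => ¬ MomCirc z r1 r2 h) ≤ C * ((r1 : ℝ) / r2) ^ α := H F 0 z r1 r2 hF h1 h12 hsub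
  have a4 : htP x F 0 (fun h => ¬ MomCirc z r1 r2 (fun u => h u + 1)) ≤ C * ((r1 : ℝ) / r2) ^ α := by
    have e := H F 1 z r1 r2 hF h1 h12 hsub
    have e1 : (fun u : TV => (0 : TV → ℤ) u + 1) = fun _ => 1 := by funext u; simp
    unfold htP at e ⊢
    rw [← e1, ht_E_shift] at e
    exact e
  calc _ ≤ _ := a1
    _ ≤ _ := a2
    _ ≤ C * ((r1 : ℝ) / r2) ^ α + C * ((r1 : ℝ) / r2) ^ α := add_le_add a3 a4
    _ = _ := by ring

/-! ## 8. The dyadic sum -/

/-- the common domains of the dyadic shell `j`: `2^j ≤ momRad z D < 2^(j+1)` -/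
def MomCom (x : ℝ) (z w : TV) (j : ℕ) (D : Finset TV) : Prop := w ∈ D ∧ momShell (momKer x z) (2 ^ j) D

open Classical in
/-- bound of one dyadic shell -/
theorem mom_com_le (x : ℝ) (hx1 : 1 / Real.sqrt 2 ≤ x) (hx2 : x ≤ 1) :
    ∃ (K C α : ℝ) (j0 : ℕ), 0 ≤ K ∧ 0 < C ∧ 0 < α ∧ ∀ (F : Finset TV) (z w : TV) (j n : ℕ), MomCo F → j0 ≤ j →
      momS (momKer x z) (fun D => if MomCom x z w j D then 1 else 0) n F ≤ K ∧
      (latBall z (latDist z w) ⊆ F → 2 ^ (j + 1) ≤ latDist z w →
        momS (momKer x z) (fun D => if MomCom x z w j D then 1 else 0) n F ≤ K * (C * ((2 : ℝ) ^ (j + 1) / latDist z w) ^ α)) := by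
  have hx : 0 < x := lt_of_lt_of_le (by positivity) hx1
  obtain ⟨K0, d0, hK0, HS⟩ := mom_shell x hx1 hx2
  obtain ⟨C, α, hC, hα, HA⟩ := mom_arm x hx1 hx2
  have h2α : 0 < (2 : ℝ) ^ α := Real.rpow_pos_of_pos (by norm_num) α
  refine ⟨1 + K0, 1 + C * 2 ^ α, α, d0, by linarith, by positivity, hα, ?_⟩
  intro F z w j n hF hj
  have hd : d0 ≤ 2 ^ j := hj.trans (Nat.lt_two_pow_self).le
  -- (i)
  have hi : ∀ (n : ℕ) (G : Finset TV), MomCo G → momS (momKer x z) (fun D => if MomCom x z w j D then 1 else 0) n G ≤ K0 := by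
    intro n G hG
    refine le_trans (mom_rc_S_mono (mom_ker_ok hx z) (fun D => ?_) n G) (HS z (2 ^ j) n G hG hd)
    by_cases hc : MomCom x z w j D
    · rw [if_pos hc, if_pos hc.2]
    · rw [if_neg hc]; split_ifs <;> norm_num
  refine ⟨(hi n F hF).trans (by linarith), fun hball hjb => ?_⟩
  set b := latDist z w with hb
  have hb0 : (0 : ℝ) < b := by
    have : 0 < 2 ^ (j + 1) := by positivity
    exact_mod_cast (by omega : 0 < b)
  have hpow : (0 : ℝ) < (2 : ℝ) ^ (j + 1) := by positivity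
  rcases Nat.lt_or_ge (b - 1) (2 ^ (j + 1)) with hcase | hcase
  · -- `2^(j+1) = b`
    have hbe : 2 ^ (j + 1) = b := by omega
    have e1 : ((2 : ℝ) ^ (j + 1) / b) = 1 := by
      rw [div_eq_one_iff_eq hb0.ne']
      exact_mod_cast hbe
    rw [e1, Real.one_rpow, mul_one]
    have h1 := hi n F hF
    have h2 : (1 + K0) * 1 ≤ (1 + K0) * (1 + C * 2 ^ α) :=
      mul_le_mul_of_nonneg_left (by nlinarith [mul_pos hC h2α]) (by linarith)
    linarith
  · -- the arm
    have hSH := mom_rc_S_le_H (mom_ker_ok hx z) (χ := MomCom x z w j) (B := K0) (fun n G hG => hi n G hG) n F hF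
    have hH := mom_H_le_arm hx z (MomCom x z w j) n F hF
    have hmono : htP x F 0 (MomArm F (MomCom x z w j)) ≤
        htP x F 0 (MomArm F (fun D => z ∈ D ∧ w ∈ D ∧ ¬ latBall z (2 ^ (j + 1)) ⊆ D)) := by
      refine ht_P_mono hx F 0 fun H _ hA => ?_
      obtain ⟨D, h1, h2, h3, h4, h5⟩ := hA
      refine ⟨D, h1, h2, h3, ⟨?_, h4.1, ?_⟩, h5⟩
      · refine mom_mem_of_rad (le_trans ?_ h4.2.1)
        exact Nat.one_le_two_pow
      · refine mom_rad_le.1 ?_
        have : momRad z D < 2 * 2 ^ j := h4.2.2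
        rw [pow_succ]
        omega
    have hw : w ∉ latBall z (b - 1) := by
      rw [lat_mem_ball]
      have : latN (w - z) = b := rfl
      have h0 : 0 < 2 ^ (j + 1) := by positivity
      omega
    have harm := HA F z w (2 ^ (j + 1)) (b - 1) hF Nat.one_le_two_pow hcase
      ((mom_ball_mono z (Nat.sub_le b 1)).trans hball) hw
    have hb2 : 2 ≤ b := by
      have : 2 ≤ 2 ^ (j + 1) := by
        calc 2 = 2 ^ 1 := by norm_num
          _ ≤ 2 ^ (j + 1) := Nat.pow_le_pow_right (by norm_num) (by omega)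
      omega
    have hb1 : (((b - 1 : ℕ)) : ℝ) = (b : ℝ) - 1 := by
      rw [Nat.cast_sub (by omega)]; norm_num
    have hb2' : (2 : ℝ) ≤ b := by exact_mod_cast hb2
    have hratio : (((2 ^ (j + 1) : ℕ)) : ℝ) / ((b - 1 : ℕ) : ℝ) ≤ 2 * ((2 : ℝ) ^ (j + 1) / b) := by
      rw [hb1]
      push_cast
      rw [div_le_iff₀ (by linarith)]
      have : 2 * ((2 : ℝ) ^ (j + 1) / b) * (b - 1) = (2 : ℝ) ^ (j + 1) * (2 * (b - 1) / b) := by
        field_simp
      rw [this]
      have h3 : 1 ≤ 2 * ((b : ℝ) - 1) / b := by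
        rw [le_div_iff₀ hb0]; linarith
      nlinarith
    have hrp : ((((2 ^ (j + 1) : ℕ)) : ℝ) / ((b - 1 : ℕ) : ℝ)) ^ α ≤ 2 ^ α * ((2 : ℝ) ^ (j + 1) / b) ^ α := by
      rw [← Real.mul_rpow (by norm_num) (by positivity)]
      exact Real.rpow_le_rpow (by positivity) hratio hα.le
    have hq0 : 0 ≤ ((2 : ℝ) ^ (j + 1) / b) ^ α := by positivity
    have hHn : momH (momKer x z) (MomCom x z w j) n F ≤ C * (2 ^ α * ((2 : ℝ) ^ (j + 1) / b) ^ α) :=
      (hH.trans hmono).trans (harm.trans (mul_le_mul_of_nonneg_left hrp hC.le))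
    calc momS (momKer x z) (fun D => if MomCom x z w j D then 1 else 0) n F
        ≤ (1 + K0) * momH (momKer x z) (MomCom x z w j) n F := hSH
      _ ≤ (1 + K0) * (C * (2 ^ α * ((2 : ℝ) ^ (j + 1) / b) ^ α)) := mul_le_mul_of_nonneg_left hHn (by linarith)
      _ ≤ (1 + K0) * ((1 + C * 2 ^ α) * ((2 : ℝ) ^ (j + 1) / b) ^ α) := by
          refine mul_le_mul_of_nonneg_left ?_ (by linarith)
          nlinarith

/-- real analysis: the sum of the shell bounds -/
theorem mom_dyadic_sum {K C α : ℝ} (hK : 0 ≤ K) (hC : 0 ≤ C) (hα : 0 < α) (b n J : ℕ) (hb : 1 ≤ b) (hbn : b ≤ n) (hJ : 2 ^ J ≤ 2 * n) (a : ℕ → ℝ)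
    (h1 : ∀ j, a j ≤ K) (h2 : ∀ j, 2 ^ (j + 1) ≤ b → a j ≤ K * (C * ((2 : ℝ) ^ (j + 1) / b) ^ α)) :
    ∑ j ∈ range J, a j ≤ K * (C / (1 - (1 / 2) ^ α) + 3 + Real.log ((n : ℝ) / b) / Real.log 2) := by
  have hb0 : (0 : ℝ) < b := by exact_mod_cast hb
  have hbn' : (b : ℝ) ≤ n := by exact_mod_cast hbn
  have hlog2 : 0 < Real.log 2 := Real.log_pos one_lt_two
  have hL0 : 0 ≤ Real.log ((n : ℝ) / b) := Real.log_nonneg ((one_le_div hb0).2 hbn')
  set r : ℝ := (1 / 2) ^ α with hr
  have hr0 : 0 < r := Real.rpow_pos_of_pos (by norm_num) α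
  have hr1 : r < 1 := Real.rpow_lt_one (by norm_num) (by norm_num) hα
  have h1r : 0 < 1 - r := by linarith
  set ℓ := Nat.log 2 b with hℓ
  have hℓ1 : 2 ^ ℓ ≤ b := Nat.pow_log_le_self 2 (by omega)
  have hℓ2 : b < 2 ^ (ℓ + 1) := Nat.lt_pow_succ_log_self (by norm_num) b
  -- the small shells
  have hsmall : ∀ j, j < ℓ → a j ≤ K * C * r ^ (ℓ - 1 - j) := by
    intro j hj
    have e1 : 2 ^ (j + 1) ≤ b := (Nat.pow_le_pow_right (by norm_num) (by omega)).trans hℓ1
    refine (h2 j e1).trans ?_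
    rw [mul_assoc]
    refine mul_le_mul_of_nonneg_left (mul_le_mul_of_nonneg_left ?_ hC) hK
    rw [hr, Real.rpow_pow_comm (by norm_num)]
    refine Real.rpow_le_rpow (by positivity) ?_ hα.le
    rw [div_le_iff₀ hb0]
    have e2 : ((2 : ℝ) ^ ℓ) ≤ b := by exact_mod_cast hℓ1
    have e3 : (2 : ℝ) ^ (j + 1) = (1 / 2) ^ (ℓ - 1 - j) * 2 ^ ℓ := by
      obtain ⟨i, hi⟩ : ∃ i, ℓ = j + 1 + i := Nat.exists_eq_add_of_le (by omega)
      rw [hi, show j + 1 + i - 1 - j = i by omega, pow_add (2 : ℝ) (j + 1) i, one_div, inv_pow]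
      field_simp
    rw [e3]
    exact mul_le_mul_of_nonneg_left e2 (by positivity)
  have hgeom : ∀ m, m ≤ ℓ → ∑ j ∈ range m, K * C * r ^ (ℓ - 1 - j) ≤ K * (C / (1 - r)) := by
    intro m hm
    have e1 : ∑ j ∈ range m, K * C * r ^ (ℓ - 1 - j) ≤ ∑ j ∈ range ℓ, K * C * r ^ (ℓ - 1 - j) :=
      sum_le_sum_of_subset_of_nonneg (range_subset_range.2 hm) (fun j _ _ => by positivity)
    have e2 : ∑ j ∈ range ℓ, K * C * r ^ (ℓ - 1 - j) = K * C * ∑ j ∈ range ℓ, r ^ j := by
      rw [mul_sum, ← sum_range_reflect]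
      refine sum_congr rfl fun j hj => ?_
      have := mem_range.1 hj
      rw [show ℓ - 1 - (ℓ - 1 - j) = j by omega]
    have e3 : ∑ j ∈ range ℓ, r ^ j ≤ 1 / (1 - r) := by
      have := (summable_geometric_of_lt_one hr0.le hr1).sum_le_tsum (range ℓ) (fun j _ => by positivity)
      rwa [tsum_geometric_of_lt_one hr0.le hr1, ← one_div] at this
    calc ∑ j ∈ range m, K * C * r ^ (ℓ - 1 - j) ≤ K * C * ∑ j ∈ range ℓ, r ^ j := e1.trans e2.le
      _ ≤ K * C * (1 / (1 - r)) := mul_le_mul_of_nonneg_left e3 (by positivity)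
      _ = K * (C / (1 - r)) := by ring
  rcases le_or_gt J ℓ with hJℓ | hJℓ
  · have e1 : ∑ j ∈ range J, a j ≤ ∑ j ∈ range J, K * C * r ^ (ℓ - 1 - j) :=
      sum_le_sum fun j hj => hsmall j ((mem_range.1 hj).trans_le hJℓ)
    have e2 := hgeom J hJℓ
    have e3 : K * (C / (1 - r)) ≤ K * (C / (1 - r) + 3 + Real.log ((n : ℝ) / b) / Real.log 2) :=
      mul_le_mul_of_nonneg_left (by have := div_nonneg hL0 hlog2.le; linarith) hK
    linarith
  · obtain ⟨m, rfl⟩ : ∃ m, J = ℓ + m := Nat.exists_eq_add_of_le hJℓ.le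
    rw [sum_range_add]
    have e1 : ∑ j ∈ range ℓ, a j ≤ K * (C / (1 - r)) :=
      (sum_le_sum fun j hj => hsmall j (mem_range.1 hj)).trans (hgeom ℓ le_rfl)
    have e2 : ∑ j ∈ range m, a (ℓ + j) ≤ m * K := by
      calc ∑ j ∈ range m, a (ℓ + j) ≤ ∑ _j ∈ range m, K := sum_le_sum fun j _ => h1 _
        _ = m * K := by rw [sum_const, card_range, nsmul_eq_mul]
    have e3 : (m : ℝ) ≤ 3 + Real.log ((n : ℝ) / b) / Real.log 2 := by
      have f1 : 2 ^ m * b < 4 * n := by
        have : 2 ^ m * b < 2 ^ m * 2 ^ (ℓ + 1) := Nat.mul_lt_mul_of_pos_left hℓ2 (by positivity)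
        have e : 2 ^ m * 2 ^ (ℓ + 1) = 2 * 2 ^ (ℓ + m) := by ring
        omega
      have f2 : (2 : ℝ) ^ m * b < 4 * n := by exact_mod_cast f1
      have f3 : (2 : ℝ) ^ m < 4 * ((n : ℝ) / b) := by
        rw [← mul_div_assoc, lt_div_iff₀ hb0]; exact f2
      have f4 : Real.log ((2 : ℝ) ^ m) < Real.log (4 * ((n : ℝ) / b)) := Real.log_lt_log (by positivity) f3
      have hnb : 0 < (n : ℝ) / b := by
        have : (0 : ℝ) < n := lt_of_lt_of_le hb0 hbn'
        positivity
      rw [Real.log_pow, Real.log_mul (by norm_num) hnb.ne', show (4 : ℝ) = 2 ^ 2 by norm_num, Real.log_pow] at f4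
      have f5 : (m : ℝ) < 2 + Real.log ((n : ℝ) / b) / Real.log 2 := by
        rw [← sub_lt_iff_lt_add', lt_div_iff₀ hlog2]
        push_cast at f4
        linarith
      linarith
    have e4 : (m : ℝ) * K ≤ K * (3 + Real.log ((n : ℝ) / b) / Real.log 2) := by
      rw [mul_comm]; exact mul_le_mul_of_nonneg_left e3 hK
    have e5 : K * (C / (1 - r) + 3 + Real.log ((n : ℝ) / b) / Real.log 2) = K * (C / (1 - r)) + K * (3 + Real.log ((n : ℝ) / b) / Real.log 2) := by ring
    rw [e5]
    linarith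

open Classical in
/-- pointwise cover of the property `w ∈ D` by the small scales, the dyadic shells `j0 ≤ j < J`, and the large scales -/
theorem mom_cover (x : ℝ) (z w : TV) (j0 J : ℕ) (D : Finset TV) :
    (if w ∈ D then (1 : ℝ) else 0) ≤ (if momRad z D ≤ 2 ^ j0 then 1 else 0) +
      (∑ j ∈ range J, if j0 ≤ j ∧ MomCom x z w j D then (1 : ℝ) else 0) + (if 2 ^ J ≤ momRad z D then 1 else 0) := by
  have hs : 0 ≤ ∑ j ∈ range J, if j0 ≤ j ∧ MomCom x z w j D then (1 : ℝ) else 0 :=
    Finset.sum_nonneg fun j _ => by split_ifs <;> norm_num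
  have t1 : (0 : ℝ) ≤ if momRad z D ≤ 2 ^ j0 then 1 else 0 := by split_ifs <;> norm_num
  have t3 : (0 : ℝ) ≤ if 2 ^ J ≤ momRad z D then 1 else 0 := by split_ifs <;> norm_num
  by_cases hw : w ∈ D
  · rw [if_pos hw]
    by_cases h1 : momRad z D ≤ 2 ^ j0
    · rw [if_pos h1]; linarith
    · by_cases h3 : 2 ^ J ≤ momRad z D
      · rw [if_pos h3]; linarith
      · rw [not_le] at h1 h3
        have hR : momRad z D ≠ 0 := by
          have : 0 < 2 ^ j0 := by positivity
          omega
        obtain ⟨j, hj⟩ : ∃ j, j = Nat.log 2 (momRad z D) := ⟨_, rfl⟩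
        have b1 : 2 ^ j ≤ momRad z D := by rw [hj]; exact Nat.pow_log_le_self 2 hR
        have b2 : momRad z D < 2 ^ (j + 1) := by rw [hj]; exact Nat.lt_pow_succ_log_self (by norm_num) _
        have b3 : j0 ≤ j := by
          by_contra hc
          have : 2 ^ (j + 1) ≤ 2 ^ j0 := Nat.pow_le_pow_right (by norm_num) (by omega)
          omega
        have b4 : j < J := by
          by_contra hc
          have : 2 ^ J ≤ 2 ^ j := Nat.pow_le_pow_right (by norm_num) (by omega)
          omega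
        have hcom : j0 ≤ j ∧ MomCom x z w j D := ⟨b3, hw, b1, by
          show momRad z D < 2 * 2 ^ j
          rw [pow_succ] at b2; omega⟩
        have := Finset.single_le_sum (f := fun j => if j0 ≤ j ∧ MomCom x z w j D then (1 : ℝ) else 0)
          (fun i _ => by split_ifs <;> norm_num) (Finset.mem_range.2 b4)
        simp only [if_pos hcom] at this
        linarith
  · rw [if_neg hw]; linarith

/-- cardinality of a ball, uniformly in the centre -/
theorem mom_ball_card (c : TV) (r : ℕ) : (latBall c r).card ≤ (2 * r + 1) ^ 2 := by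
  unfold latBall
  refine (Finset.card_filter_le _ _).trans ?_
  rw [Finset.card_product, Int.card_Icc, Int.card_Icc]
  have e1 : (c.1 + r + 1 - (c.1 - r)).toNat = 2 * r + 1 := by omega
  have e2 : (c.2 + r + 1 - (c.2 - r)).toNat = 2 * r + 1 := by omega
  rw [e1, e2, sq]

/-- **TEX[moments:covariance]** -/
theorem mom_cov (x : ℝ) (hx1 : 1 / Real.sqrt 2 ≤ x) (hx2 : x ≤ 1) :
    ∃ C : ℝ, 0 < C ∧ ∀ (F : Finset TV) (z w : TV) (n : ℕ),
      MomCo F → latBall z (latDist z w) ⊆ F → ¬ latBall z n ⊆ F →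
      0 ≤ htE x F 0 (fun h => (h z : ℝ) * (h w : ℝ)) ∧
      htE x F 0 (fun h => (h z : ℝ) * (h w : ℝ)) ≤ C * (1 + Real.log ((n : ℝ) / max 1 (latDist z w : ℝ))) := by
  classical
  have hx : 0 < x := lt_of_lt_of_le (by positivity) hx1
  obtain ⟨K, C, α, j0, hK, hC, hα, hcom⟩ := mom_com_le x hx1 hx2
  have hlog2 : 0 < Real.log 2 := Real.log_pos one_lt_two
  have hr1 : (1 / 2 : ℝ) ^ α < 1 := Real.rpow_lt_one (by norm_num) (by norm_num) hα
  have h1r : 0 < 1 - (1 / 2 : ℝ) ^ α := by linarith
  obtain ⟨A, hA⟩ : ∃ A : ℝ, A = ((2 * 2 ^ j0 + 1) ^ 2 : ℕ) + K * (C / (1 - (1 / 2) ^ α) + 3) := ⟨_, rfl⟩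
  have hA0 : 0 ≤ A := by rw [hA]; positivity
  refine ⟨A + K / Real.log 2 + 1, by positivity, fun F z w n hF hball hn => ⟨mom_cov_nonneg hx hx2 F z w, ?_⟩⟩
  obtain ⟨d, hdd⟩ : ∃ d, d = latDist z w := ⟨_, rfl⟩
  rw [← hdd] at hball ⊢
  have hdn : d < n := by
    by_contra hc
    exact hn ((mom_ball_mono z (not_lt.1 hc)).trans hball)
  obtain ⟨b, hb⟩ : ∃ b, b = max 1 d := ⟨_, rfl⟩
  have hb1 : 1 ≤ b := by rw [hb]; exact le_max_left _ _
  have hbn : b ≤ n := by rw [hb]; exact max_le (by omega) hdn.le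
  have hbc : (max 1 (d : ℝ)) = (b : ℝ) := by rw [hb]; push_cast; rfl
  rw [hbc]
  obtain ⟨J, hJ⟩ : ∃ J, J = Nat.log 2 n + 1 := ⟨_, rfl⟩
  have hJ1 : 2 ^ J ≤ 2 * n := by
    rw [hJ, pow_succ]
    have := Nat.pow_log_le_self 2 (show n ≠ 0 by omega)
    omega
  have hJ2 : n < 2 ^ J := by rw [hJ]; exact Nat.lt_pow_succ_log_self (by norm_num) n
  have hok := mom_ker_ok hx z
  have s0 := mom_cov_le_S hx z w F hF
  obtain ⟨m, hm⟩ : ∃ m, m = F.card := ⟨_, rfl⟩
  rw [← hm] at s0
  -- the cover
  have s1 : momS (momKer x z) (fun D => if w ∈ D then 1 else 0) m F ≤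
      momS (momKer x z) (fun D => if momRad z D ≤ 2 ^ j0 then 1 else 0) m F +
      ∑ j ∈ range J, momS (momKer x z) (fun D => if j0 ≤ j ∧ MomCom x z w j D then (1 : ℝ) else 0) m F +
      momS (momKer x z) (fun D => if 2 ^ J ≤ momRad z D then 1 else 0) m F := by
    rw [← mom_rc_S_sum, ← mom_rc_S_add, ← mom_rc_S_add]
    exact mom_rc_S_mono hok (fun D => mom_cover x z w j0 J D) m F
  have s2 : momS (momKer x z) (fun D => if momRad z D ≤ 2 ^ j0 then 1 else 0) m F ≤ ((2 * 2 ^ j0 + 1) ^ 2 : ℕ) :=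
    (mom_small hx z (2 ^ j0) m F).trans (by exact_mod_cast mom_ball_card z (2 ^ j0))
  have s3 : momS (momKer x z) (fun D => if 2 ^ J ≤ momRad z D then 1 else 0) m F = 0 := by
    refine mom_rc_S_vanish hok (R := n) (fun D hD => ?_) m F (mom_rad_le.2 hn)
    have hD' : momRad z D ≤ n := hD
    rw [if_neg (by omega)]
  have hz : ∀ j, j < j0 → momS (momKer x z) (fun D => if j0 ≤ j ∧ MomCom x z w j D then (1 : ℝ) else 0) m F = 0 := by
    intro j hj
    have e : (fun D => if j0 ≤ j ∧ MomCom x z w j D then (1 : ℝ) else 0) = fun _ => 0 := by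
      funext D
      rw [if_neg (fun h => by omega)]
    rw [e, mom_rc_S_const_zero]
  have he : ∀ j, j0 ≤ j → momS (momKer x z) (fun D => if j0 ≤ j ∧ MomCom x z w j D then (1 : ℝ) else 0) m F
      = momS (momKer x z) (fun D => if MomCom x z w j D then 1 else 0) m F := by
    intro j hj
    congr 1
    funext D
    simp only [hj, true_and]
  have s4 := mom_dyadic_sum hK hC.le hα b n J hb1 hbn hJ1
    (fun j => momS (momKer x z) (fun D => if j0 ≤ j ∧ MomCom x z w j D then (1 : ℝ) else 0) m F) ?_ ?_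
  · have hL0 : 0 ≤ Real.log ((n : ℝ) / b) := by
      have hb0 : (0 : ℝ) < b := by exact_mod_cast hb1
      exact Real.log_nonneg ((one_le_div hb0).2 (by exact_mod_cast hbn))
    have e1 : K * (C / (1 - (1 / 2) ^ α) + 3 + Real.log ((n : ℝ) / b) / Real.log 2)
        = K * (C / (1 - (1 / 2) ^ α) + 3) + K / Real.log 2 * Real.log ((n : ℝ) / b) := by ring
    have hKl : 0 ≤ K / Real.log 2 := by positivity
    have e2 : htE x F 0 (fun h => (h z : ℝ) * (h w : ℝ)) ≤ A + K / Real.log 2 * Real.log ((n : ℝ) / b) := by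
      rw [hA]; linarith
    nlinarith [mul_nonneg hA0 hL0, mul_nonneg hKl hL0]
  · intro j
    rcases lt_or_ge j j0 with hj | hj
    · show momS _ _ _ _ ≤ K
      rw [hz j hj]; exact hK
    · show momS _ _ _ _ ≤ K
      rw [he j hj]; exact (hcom F z w j m hF hj).1
  · intro j hjb
    show momS _ _ _ _ ≤ _
    rcases lt_or_ge j j0 with hj | hj
    · rw [hz j hj]; positivity
    · have h2j : 2 ≤ 2 ^ (j + 1) := by
        have : 1 ≤ 2 ^ j := Nat.one_le_two_pow
        rw [pow_succ]; omega
      have hbd : b = d := by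
        rw [hb] at hjb ⊢
        rcases le_total 1 d with h | h
        · exact max_eq_right h
        · rw [max_eq_left h] at hjb; omega
      rw [he j hj, hbd]
      have := (hcom F z w j m hF hj).2 (by rw [← hdd]; exact hball) (by rw [← hdd, ← hbd]; exact hjb)
      rw [← hdd] at this
      exact this

/-- house rule: the equation lemmas of the definitions are generated here -/
theorem mom_shell_eqns_cite : True := by
  have := @momF.eq_1; have := @momF.eq_2; have := @momF.eq_3; have := @momP.eq_1; have := @momRad.eq_1; have := @momKer.eq_1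
  have := @MomArm.eq_1; have := @MomCom.eq_1
  trivial

end Claimed.Agent.R291
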