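import Claimed.Agent.R291.Tool.MidAmp
import Claimed.Agent.R291.Tool.MidWeight
import Claimed.Agent.R291.Dis.HtOrd
import Claimed.Agent.R291.Defs.Mom

/-!
# Row 291 (S0539), unit MOM, `Mom/Smear`      (owner helper164; head of the unit helper122; prefix `mom_sm_`, `mom_`)

Paper: Sec. 3, end of the proof of Lemma 3.2 (layer cake, TEX[moments:covariance]) and Prop. 3.6 (TEX[prop:smearing]).
Design: notes/R291/sec3_122.md, (d) "Mom/Smear.lean": covariance bound E1' ⟹ second moment ⟹ Chebyshev ⟹ Lemma 3.5 with one class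
(Lemma 3.4 on the edges meeting `F`) ⟹ E1 at a fixed boundary function ⟹ (height order D1) ⟹ E1 with a bounded trace.

* §A model free: `mom_sm_log_le_count`, `mom_sm_layer` (dyadic layer cake), `mom_sm_second` (quadratic form of a kernel with a
  logarithmic bound), `mom_sm_cheb` (central mass `1/2`).
* §B lattice: `mom_sm_ball_card`, `mom_sm_count` (`#{i : max 1 |i - z| ≤ r} ≤ 9 r²`).
* §C laws of `Defs/Ht`: `mom_adm_of_mem`, `mom_mem_of_adm`, `mom_htE_sum`, `mom_htE_mono`, `mom_htE_nonneg`, `mom_htE_sq`,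
  `mom_sm_amp` (second moment ⟹ all moments; any free set, any boundary function).
* §D `MomSmear z0 a Aw w`, `momM`, `mom_sm_zero` (Prop. 3.6 at a fixed boundary function from the covariance bound).
* §E bounded traces (`hto_order`, `hto_shift` of helper139): `mom_tr_*`, `mom_sm_trace_pos` (weights `≥ 0`), `mom_sm_trace` (signed weights),
  `momC`, **`mom_smear`** = Prop. 3.6 for one height problem `(F, τ)`, `|τ| ≤ K`.
* §F `mom_htE_far` (only the boundary values on `latOut A` matter for observables reading `latCl A`), hex norm (`mom_latN_add`,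
  `mom_latDist_tri`, `mom_ball_sub`), `mom_out_nonempty`, `MomSm.toSmear`, `mom_cov_ball`,
  **`mom_smear_exit`** = the statement of `exit_mom_smear` from the statement of `exit_mom_cov`.
* §G **`mom_ball_co`**: hexagons have no hole (`MomCo (latBall c r)`).
* §H `momArr u0 a w` (function weights cut off to a ball, as a `Finsupp`), `mom_arr_latArr`, `mom_arr_latTot`, `mom_arr_sm`,
  **`mom_plane_field`** = the field `LimPlane.mom` from the field `LimPlane.lim` and the statement of `exit_mom_plane`.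
-/

set_option autoImplicit false

namespace Claimed.Agent.R291

open Finset

/-! ## A. model free -/

/-- `log t ≤ log 2 * #{k < K : 2^k ≤ t}` for `1 ≤ t < 2^K` -/
theorem mom_sm_log_le_count : ∀ (K : ℕ) {t : ℝ}, 1 ≤ t → t < 2 ^ K →
    Real.log t ≤ Real.log 2 * ∑ k ∈ range K, (if (2:ℝ) ^ k ≤ t then (1:ℝ) else 0) := by
  intro K
  induction K with
  | zero => intro t h1 h2; simp at h2; linarith
  | succ K ih =>
    intro t h1 h2
    have hl2 : 0 < Real.log 2 := Real.log_pos (by norm_num)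
    rw [Finset.sum_range_succ']
    simp only [pow_zero, h1, if_true]
    by_cases ht : t < 2
    · have h3 : Real.log t ≤ Real.log 2 := Real.log_le_log (by linarith) ht.le
      have h4 : 0 ≤ ∑ k ∈ range K, (if (2:ℝ) ^ (k + 1) ≤ t then (1:ℝ) else 0) :=
        Finset.sum_nonneg fun k _ => by split_ifs <;> norm_num
      nlinarith
    · have ht' : 2 ≤ t := not_lt.1 ht
      have h3 := ih (t := t / 2) (by linarith) (by rw [pow_succ] at h2; linarith)
      have h4 : Real.log t = Real.log 2 + Real.log (t / 2) := by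
        rw [← Real.log_mul (by norm_num) (by positivity)]; congr 1; ring
      have h5 : ∑ k ∈ range K, (if (2:ℝ) ^ (k + 1) ≤ t then (1:ℝ) else 0) = ∑ k ∈ range K, (if (2:ℝ) ^ k ≤ t / 2 then (1:ℝ) else 0) := by
        refine Finset.sum_congr rfl fun k _ => ?_
        have : (2:ℝ) ^ (k + 1) ≤ t ↔ (2:ℝ) ^ k ≤ t / 2 := by
          rw [pow_succ]; constructor <;> intro h <;> linarith
        simp only [this]
      rw [h5, h4]
      nlinarith

/-- **layer cake** (end of the proof of Lemma 3.2): the average of the logarithmic singularity is bounded.   TEX[moments:covariance] -/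
theorem mom_sm_layer {ι : Type*} (S : Finset ι) (w b : ι → ℝ) {A a Cb : ℝ} (ha : 1 ≤ a) (hA : 0 ≤ A) (hCb : 0 ≤ Cb)
    (hb : ∀ i ∈ S, 1 ≤ b i) (hsup : ∀ i ∈ S, |w i| ≤ A / a ^ 2)
    (hcount : ∀ r : ℝ, 1 ≤ r → ((S.filter fun i => b i ≤ r).card : ℝ) ≤ Cb * r ^ 2) :
    ∑ i ∈ S, |w i| * Real.log (max 1 (a / b i)) ≤ Cb * A := by
  classical
  have ha0 : 0 < a := by linarith
  obtain ⟨K, hK⟩ := pow_unbounded_of_one_lt a (by norm_num : (1:ℝ) < 2)
  have hl2 : 0 < Real.log 2 := Real.log_pos (by norm_num)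
  -- pointwise
  have h1 : ∀ i ∈ S, |w i| * Real.log (max 1 (a / b i)) ≤
      Real.log 2 * ∑ k ∈ range K, (if b i ≤ a / 2 ^ k then A / a ^ 2 else 0) := by
    intro i hi
    have hbi := hb i hi
    have hbi0 : 0 < b i := by linarith
    have hnn : 0 ≤ ∑ k ∈ range K, (if b i ≤ a / 2 ^ k then A / a ^ 2 else 0) :=
      Finset.sum_nonneg fun k _ => by split_ifs <;> positivity
    by_cases hab : a / b i < 1
    · rw [max_eq_left hab.le, Real.log_one, mul_zero]; positivity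
    · have hab' : 1 ≤ a / b i := not_lt.1 hab
      rw [max_eq_right hab']
      have h2 := mom_sm_log_le_count K hab' (lt_of_le_of_lt (div_le_self ha0.le hbi) hK)
      have h3 : ∑ k ∈ range K, (if (2:ℝ) ^ k ≤ a / b i then (1:ℝ) else 0) * (A / a ^ 2) =
          ∑ k ∈ range K, (if b i ≤ a / 2 ^ k then A / a ^ 2 else 0) := by
        refine Finset.sum_congr rfl fun k _ => ?_
        have : (2:ℝ) ^ k ≤ a / b i ↔ b i ≤ a / 2 ^ k := by
          rw [le_div_iff₀ hbi0, le_div_iff₀ (by positivity), mul_comm]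
        simp only [this]
        split_ifs <;> simp
      rw [← h3, ← Finset.sum_mul]
      have h4 : 0 ≤ Real.log (a / b i) := Real.log_nonneg hab'
      calc |w i| * Real.log (a / b i) ≤ (A / a ^ 2) * Real.log (a / b i) := mul_le_mul_of_nonneg_right (hsup i hi) h4
        _ ≤ (A / a ^ 2) * (Real.log 2 * ∑ k ∈ range K, (if (2:ℝ) ^ k ≤ a / b i then (1:ℝ) else 0)) :=
            mul_le_mul_of_nonneg_left h2 (by positivity)
        _ = _ := by ring
  -- one scale
  have h2 : ∀ k, ∑ i ∈ S, (if b i ≤ a / 2 ^ k then A / a ^ 2 else 0) ≤ Cb * A * (1 / 4) ^ k := by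
    intro k
    rw [← Finset.sum_filter, Finset.sum_const, nsmul_eq_mul]
    by_cases hk : 1 ≤ a / 2 ^ k
    · have := hcount _ hk
      calc ((S.filter fun i => b i ≤ a / 2 ^ k).card : ℝ) * (A / a ^ 2) ≤ (Cb * (a / 2 ^ k) ^ 2) * (A / a ^ 2) :=
            mul_le_mul_of_nonneg_right this (by positivity)
        _ = Cb * A * (1 / 4) ^ k := by
            have : ((2:ℝ) ^ k) ^ 2 = 4 ^ k := by rw [← pow_mul, mul_comm, pow_mul]; norm_num
            rw [div_pow, this, one_div, inv_pow]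
            field_simp
    · have : (S.filter fun i => b i ≤ a / 2 ^ k) = ∅ := by
        rw [Finset.filter_eq_empty_iff]
        intro i hi h
        exact hk ((hb i hi).trans h)
      rw [this]; simp; positivity
  have h3 : ∑ k ∈ range K, ((1:ℝ) / 4) ^ k ≤ 4 / 3 := by
    have := geom_sum_eq (by norm_num : ((1:ℝ) / 4) ≠ 1) K
    rw [this]
    have h5 : 0 ≤ ((1:ℝ) / 4) ^ K := by positivity
    rw [div_le_iff_of_neg (by norm_num)]
    linarith
  have hlog2 : Real.log 2 ≤ 3 / 4 := by have := Real.log_two_lt_d9; linarith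
  calc ∑ i ∈ S, |w i| * Real.log (max 1 (a / b i))
      ≤ ∑ i ∈ S, Real.log 2 * ∑ k ∈ range K, (if b i ≤ a / 2 ^ k then A / a ^ 2 else 0) := Finset.sum_le_sum h1
    _ = Real.log 2 * ∑ k ∈ range K, ∑ i ∈ S, (if b i ≤ a / 2 ^ k then A / a ^ 2 else 0) := by
        rw [← Finset.mul_sum, Finset.sum_comm]
    _ ≤ Real.log 2 * ∑ k ∈ range K, Cb * A * (1 / 4) ^ k :=
        mul_le_mul_of_nonneg_left (Finset.sum_le_sum fun k _ => h2 k) hl2.le
    _ = Real.log 2 * (Cb * A) * ∑ k ∈ range K, ((1:ℝ) / 4) ^ k := by rw [← Finset.mul_sum]; ring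
    _ ≤ (3 / 4) * (Cb * A) * (4 / 3) := by
        have : 0 ≤ Cb * A := by positivity
        have h6 : 0 ≤ ∑ k ∈ range K, ((1:ℝ) / 4) ^ k := Finset.sum_nonneg fun k _ => by positivity
        exact mul_le_mul (mul_le_mul_of_nonneg_right hlog2 this) h3 h6 (by positivity)
    _ = Cb * A := by ring

/-- **second moment from a logarithmic covariance bound** (TEX (moments:second-moment)), any kernel `K`, signed weights -/
theorem mom_sm_second {ι : Type*} (S : Finset ι) (w : ι → ℝ) (b K : ι → ι → ℝ) {A a n C Cb : ℝ} (ha : 1 ≤ a) (han : a ≤ n)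
    (hA : 0 ≤ A) (hC : 0 ≤ C) (hCb : 0 ≤ Cb) (hb : ∀ z ∈ S, ∀ i ∈ S, 1 ≤ b z i) (hsum : ∑ i ∈ S, |w i| ≤ A)
    (hsup : ∀ i ∈ S, |w i| ≤ A / a ^ 2)
    (hcount : ∀ z ∈ S, ∀ r : ℝ, 1 ≤ r → ((S.filter fun i => b z i ≤ r).card : ℝ) ≤ Cb * r ^ 2)
    (hK : ∀ z ∈ S, ∀ i ∈ S, |K z i| ≤ C * (1 + Real.log (n / b z i))) :
    |∑ z ∈ S, ∑ i ∈ S, w z * w i * K z i| ≤ C * (1 + Cb) * A ^ 2 * (1 + Real.log (n / a)) := by
  have ha0 : 0 < a := by linarith
  have hn0 : 0 < n := by linarith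
  have hL : 0 ≤ Real.log (n / a) := Real.log_nonneg ((one_le_div ha0).2 han)
  have h1 : ∀ z ∈ S, ∑ i ∈ S, |w i| * |K z i| ≤ C * (A * (1 + Real.log (n / a)) + Cb * A) := by
    intro z hz
    have h2 := mom_sm_layer S w (b z) ha hA hCb (hb z hz) hsup (hcount z hz)
    calc ∑ i ∈ S, |w i| * |K z i| ≤ ∑ i ∈ S, C * (|w i| * (1 + Real.log (n / a)) + |w i| * Real.log (max 1 (a / b z i))) := by
          refine Finset.sum_le_sum fun i hi => ?_
          have hbi := hb z hz i hi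
          have hbi0 : 0 < b z i := by linarith
          have h3 : Real.log (n / b z i) = Real.log (n / a) + Real.log (a / b z i) := by
            rw [← Real.log_mul (by positivity) (by positivity)]; congr 1; field_simp
          have h4 : Real.log (a / b z i) ≤ Real.log (max 1 (a / b z i)) :=
            Real.log_le_log (by positivity) (le_max_right _ _)
          have h5 := hK z hz i hi
          have h6 : |K z i| ≤ C * (1 + Real.log (n / a) + Real.log (max 1 (a / b z i))) := by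
            refine h5.trans (mul_le_mul_of_nonneg_left ?_ hC); rw [h3]; linarith
          calc |w i| * |K z i| ≤ |w i| * (C * (1 + Real.log (n / a) + Real.log (max 1 (a / b z i)))) :=
                mul_le_mul_of_nonneg_left h6 (abs_nonneg _)
            _ = _ := by ring
      _ = C * ((∑ i ∈ S, |w i|) * (1 + Real.log (n / a)) + ∑ i ∈ S, |w i| * Real.log (max 1 (a / b z i))) := by
          rw [← Finset.mul_sum, Finset.sum_add_distrib, Finset.sum_mul]
      _ ≤ C * (A * (1 + Real.log (n / a)) + Cb * A) := by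
          refine mul_le_mul_of_nonneg_left (add_le_add (mul_le_mul_of_nonneg_right hsum (by linarith)) h2) hC
  calc |∑ z ∈ S, ∑ i ∈ S, w z * w i * K z i| ≤ ∑ z ∈ S, |w z| * ∑ i ∈ S, |w i| * |K z i| := by
        refine (Finset.abs_sum_le_sum_abs _ _).trans (Finset.sum_le_sum fun z _ => ?_)
        rw [Finset.mul_sum]
        refine (Finset.abs_sum_le_sum_abs _ _).trans (Finset.sum_le_sum fun i _ => ?_)
        rw [abs_mul, abs_mul, mul_assoc]
    _ ≤ ∑ z ∈ S, |w z| * (C * (A * (1 + Real.log (n / a)) + Cb * A)) :=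
        Finset.sum_le_sum fun z hz => mul_le_mul_of_nonneg_left (h1 z hz) (abs_nonneg _)
    _ = (∑ z ∈ S, |w z|) * (C * (A * (1 + Real.log (n / a)) + Cb * A)) := by rw [Finset.sum_mul]
    _ ≤ A * (C * (A * (1 + Real.log (n / a)) + Cb * A)) :=
        mul_le_mul_of_nonneg_right hsum (by positivity)
    _ ≤ C * (1 + Cb) * A ^ 2 * (1 + Real.log (n / a)) := by
        have : 0 ≤ C * Cb * A ^ 2 * Real.log (n / a) := by positivity
        nlinarith

/-- Chebyshev: a second moment bound gives central mass `1/2` (unnormalised weights) -/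
theorem mom_sm_cheb {α : Type*} (Ω : Finset α) (W Y : α → ℝ) (hW : ∀ s ∈ Ω, 0 ≤ W s) {V M : ℝ} (hM : 0 < M)
    (h2 : ∑ s ∈ Ω, Y s ^ 2 * W s ≤ V * ∑ s ∈ Ω, W s) (hV : 2 * V ≤ M ^ 2) :
    (1 / 2) * ∑ s ∈ Ω, W s ≤ ∑ s ∈ Ω with |Y s| ≤ M, W s := by
  classical
  have hZ : 0 ≤ ∑ s ∈ Ω, W s := Finset.sum_nonneg hW
  have h3 : ∑ s ∈ Ω, W s = (∑ s ∈ Ω with |Y s| ≤ M, W s) + ∑ s ∈ Ω with ¬ |Y s| ≤ M, W s :=
    (Finset.sum_filter_add_sum_filter_not Ω _ _).symm
  have h4 : M ^ 2 * ∑ s ∈ Ω with ¬ |Y s| ≤ M, W s ≤ ∑ s ∈ Ω, Y s ^ 2 * W s := by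
    rw [Finset.mul_sum]
    calc ∑ s ∈ Ω with ¬ |Y s| ≤ M, M ^ 2 * W s ≤ ∑ s ∈ Ω with ¬ |Y s| ≤ M, Y s ^ 2 * W s := by
          refine Finset.sum_le_sum fun s hs => ?_
          obtain ⟨hs1, hs2⟩ := Finset.mem_filter.1 hs
          have : M ^ 2 ≤ Y s ^ 2 := by
            rw [← sq_abs (Y s)]; exact pow_le_pow_left₀ hM.le (not_le.1 hs2).le 2
          exact mul_le_mul_of_nonneg_right this (hW s hs1)
      _ ≤ ∑ s ∈ Ω, Y s ^ 2 * W s :=
          Finset.sum_le_sum_of_subset_of_nonneg (Finset.filter_subset _ _) fun s hs _ => mul_nonneg (sq_nonneg _) (hW s hs)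
  have h5 : 0 ≤ ∑ s ∈ Ω with ¬ |Y s| ≤ M, W s := Finset.sum_nonneg fun s hs => hW s (Finset.mem_filter.1 hs).1
  have h6 : M ^ 2 * ∑ s ∈ Ω with ¬ |Y s| ≤ M, W s ≤ M ^ 2 / 2 * ∑ s ∈ Ω, W s :=
    h4.trans (h2.trans (mul_le_mul_of_nonneg_right (by linarith) hZ))
  have hM2 : 0 < M ^ 2 := by positivity
  have h7 : ∑ s ∈ Ω with ¬ |Y s| ≤ M, W s ≤ 1 / 2 * ∑ s ∈ Ω, W s := by
    have : M ^ 2 * ∑ s ∈ Ω with ¬ |Y s| ≤ M, W s ≤ M ^ 2 * (1 / 2 * ∑ s ∈ Ω, W s) := by linarith
    exact le_of_mul_le_mul_left this hM2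
  linarith

/-! ## B. lattice counts -/

theorem mom_sm_ball_card (c : TV) (r : ℕ) : (latBall c r).card ≤ (2 * r + 1) ^ 2 := by
  unfold latBall
  refine (Finset.card_filter_le _ _).trans ?_
  rw [Finset.card_product, Int.card_Icc, Int.card_Icc, sq]
  have e1 : (c.1 + r + 1 - (c.1 - r)).toNat = 2 * r + 1 := by omega
  have e2 : (c.2 + r + 1 - (c.2 - r)).toNat = 2 * r + 1 := by omega
  rw [e1, e2]

theorem mom_sm_mem_ball {c u : TV} {r : ℕ} : u ∈ latBall c r ↔ latDist c u ≤ r := lat_mem_ball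

/-- the count hypothesis of the layer cake, hex norm, `Cb = 9` -/
theorem mom_sm_count (S : Finset TV) (z : TV) {r : ℝ} (hr : 1 ≤ r) :
    ((S.filter fun i => max 1 (latDist z i : ℝ) ≤ r).card : ℝ) ≤ 9 * r ^ 2 := by
  have h1 : (S.filter fun i => max 1 (latDist z i : ℝ) ≤ r) ⊆ latBall z ⌊r⌋₊ := by
    intro i hi
    have := (Finset.mem_filter.1 hi).2
    rw [mom_sm_mem_ball]
    exact Nat.le_floor ((le_max_right _ _).trans this)
  have h2 := (Finset.card_le_card h1).trans (mom_sm_ball_card z ⌊r⌋₊)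
  have h3 : ((⌊r⌋₊ : ℕ) : ℝ) ≤ r := Nat.floor_le (by linarith)
  calc ((S.filter fun i => max 1 (latDist z i : ℝ) ≤ r).card : ℝ) ≤ (((2 * ⌊r⌋₊ + 1) ^ 2 : ℕ) : ℝ) := by exact_mod_cast h2
    _ = (2 * (⌊r⌋₊ : ℝ) + 1) ^ 2 := by push_cast; ring
    _ ≤ (3 * r) ^ 2 := pow_le_pow_left₀ (by positivity) (by linarith) 2
    _ = 9 * r ^ 2 := by ring

/-! ## C. the laws of `Defs/Ht`: linearity, second moment, amplification at a fixed boundary function -/

section law
variable {x : ℝ} {A : Finset TV} {b : TV → ℤ}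

theorem mom_adm_of_mem {h : TV → ℤ} (hh : h ∈ htCfg A b) : HtAdm A b h := by
  unfold htCfg at hh
  split_ifs at hh with hf
  · exact hf.mem_toFinset.1 hh
  · exact absurd hh (Finset.notMem_empty _)

/-- membership in `htCfg` without the finiteness theorem: one configuration is enough -/
theorem mom_mem_of_adm {s h : TV → ℤ} (hs : s ∈ htCfg A b) (hh : HtAdm A b h) : h ∈ htCfg A b := by
  unfold htCfg at hs ⊢
  split_ifs at hs ⊢ with hf
  · exact hf.mem_toFinset.2 hh
  · exact absurd hs (Finset.notMem_empty _)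

theorem mom_htWt_nonneg (hx0 : 0 ≤ x) (h : TV → ℤ) : 0 ≤ htWt x A h := pow_nonneg hx0 _

theorem mom_htZ_nonneg (hx0 : 0 ≤ x) : 0 ≤ htZ x A b := Finset.sum_nonneg fun h _ => mom_htWt_nonneg hx0 h

theorem mom_htE_sum {ι : Type*} (S : Finset ι) (c : ι → ℝ) (G : ι → (TV → ℤ) → ℝ) :
    htE x A b (fun h => ∑ i ∈ S, c i * G i h) = ∑ i ∈ S, c i * htE x A b (G i) := by
  unfold htE
  simp_rw [Finset.mul_sum]
  rw [Finset.sum_comm, Finset.sum_div]
  refine Finset.sum_congr rfl fun i _ => ?_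
  rw [← mul_div_assoc, Finset.mul_sum]
  congr 1
  exact Finset.sum_congr rfl fun h _ => by ring

theorem mom_htE_mono (hx0 : 0 ≤ x) {G G' : (TV → ℤ) → ℝ} (h : ∀ s ∈ htCfg A b, G s ≤ G' s) : htE x A b G ≤ htE x A b G' := by
  unfold htE
  exact div_le_div_of_nonneg_right (Finset.sum_le_sum fun s hs => mul_le_mul_of_nonneg_left (h s hs) (mom_htWt_nonneg hx0 s))
    (mom_htZ_nonneg hx0)

theorem mom_htE_nonneg (hx0 : 0 ≤ x) {G : (TV → ℤ) → ℝ} (h : ∀ s ∈ htCfg A b, 0 ≤ G s) : 0 ≤ htE x A b G := by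
  unfold htE
  exact div_nonneg (Finset.sum_nonneg fun s hs => mul_nonneg (mom_htWt_nonneg hx0 s) (h s hs)) (mom_htZ_nonneg hx0)

/-- the second moment of a linear statistic is the quadratic form of the covariance kernel -/
theorem mom_htE_sq (S : Finset TV) (w : TV → ℝ) :
    htE x A b (fun h => (midY S w h) ^ 2) = ∑ z ∈ S, ∑ i ∈ S, w z * w i * htE x A b (fun h => (h z : ℝ) * h i) := by
  have : (fun h : TV → ℤ => (midY S w h) ^ 2) = fun h => ∑ p ∈ S ×ˢ S, (w p.1 * w p.2) * ((h p.1 : ℝ) * h p.2) := by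
    funext h
    unfold midY
    rw [sq, Finset.sum_mul_sum, Finset.sum_product]
    exact Finset.sum_congr rfl fun z _ => Finset.sum_congr rfl fun i _ => by ring
  rw [this, mom_htE_sum, Finset.sum_product]

/-- **second moment ⟹ all moments** (Chebyshev + Lemma 3.4 + Lemma 3.5 with one class), any free set, any boundary function.
TEX[prop:smearing], first paragraph of the proof -/
theorem mom_sm_amp (hx0 : 0 ≤ x) (hx1 : x ≤ 1) (S : Finset TV) (w : TV → ℝ) {V M : ℝ} (hM : 0 < M)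
    (hA : (∑ u ∈ S, |w u|) / 2 ≤ M) (h2 : htE x A b (fun h => (midY S w h) ^ 2) ≤ V) (hV : 2 * V ≤ M ^ 2) (p : ℕ) :
    htE x A b (fun h => |midY S w h| ^ p) ≤ mdpC 1 (1 / 2) p * M ^ p := by
  have hC := mdpC_pos 1 (1 / 2) p
  rcases (mom_htZ_nonneg (A := A) (b := b) hx0).eq_or_lt with hZ | hZ
  · unfold htE; rw [← hZ, div_zero]; positivity
  have h2' : ∑ s ∈ htCfg A b, (midY S w s) ^ 2 * htWt x A s ≤ V * ∑ s ∈ htCfg A b, htWt x A s := by
    unfold htE at h2
    rw [div_le_iff₀ hZ] at h2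
    calc ∑ s ∈ htCfg A b, (midY S w s) ^ 2 * htWt x A s = ∑ s ∈ htCfg A b, htWt x A s * (midY S w s) ^ 2 :=
          Finset.sum_congr rfl fun s _ => mul_comm _ _
      _ ≤ _ := h2
  have hamp : MdpAmp (htCfg A b) (htWt x A) (midY S w) (fun _ => ()) 1 (1 / 2) M :=
    mdp_amp_one (fun s _ => mom_htWt_nonneg hx0 s) hM (by norm_num)
      (fun s hs t ht _ _ => ⟨mom_mem_of_adm hs (midL_htAdm_same (mom_adm_of_mem hs) (mom_adm_of_mem ht)),
        mom_mem_of_adm hs (midU_htAdm_same (mom_adm_of_mem hs) (mom_adm_of_mem ht)),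
        mid_htWt hx0 hx1 (mom_adm_of_mem hs) (mom_adm_of_mem ht)⟩)
      (fun s _ t _ _ _ => ⟨(midL_round S w s t).trans hA, (midU_round S w s t).trans hA⟩)
      (mom_sm_cheb _ _ _ (fun s _ => mom_htWt_nonneg hx0 s) hM h2' hV)
  have := mdp_amp_mom_div hamp p
  unfold htE htZ
  calc (∑ h ∈ htCfg A b, htWt x A h * |midY S w h| ^ p) / ∑ h ∈ htCfg A b, htWt x A h
      = (∑ s ∈ htCfg A b, |midY S w s| ^ p * htWt x A s) / ∑ s ∈ htCfg A b, htWt x A s := by
        congr 1; exact Finset.sum_congr rfl fun s _ => mul_comm _ _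
    _ ≤ _ := this

end law

/-! ## D. smearings -/

/-- a smearing of radius `a` and weight bound `Aw` centred at `z0` (hex norm; TEX (moments:weights)); the statistic is
`midY (latBall z0 a) w h = ∑_{u ∈ Λ_a(z0)} w u * h u` -/
structure MomSmear (z0 : TV) (a : ℕ) (Aw : ℝ) (w : TV → ℝ) : Prop where
  a_pos : 1 ≤ a
  sum_le : ∑ u ∈ latBall z0 a, |w u| ≤ Aw
  sup_le : ∀ u ∈ latBall z0 a, |w u| ≤ Aw / (a : ℝ) ^ 2

/-- the scale `M` of the smearing bound -/
noncomputable def momM (C1 Aw L : ℝ) : ℝ := Aw * Real.sqrt (20 * C1 + 1) * (1 + Real.sqrt L)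

section smear
variable {x : ℝ} {F : Finset TV} {b : TV → ℤ}

/-- **Prop. 3.6 at a fixed boundary function**, from the logarithmic covariance bound on the ball of the smearing -/
theorem mom_sm_zero (hx0 : 0 ≤ x) (hx1 : x ≤ 1) {C1 : ℝ} (hC1 : 0 ≤ C1) {z0 : TV} {a : ℕ} {n Aw : ℝ} {w : TV → ℝ} (hAw : 0 < Aw)
    (hw : MomSmear z0 a Aw w) (han : (a : ℝ) ≤ n)
    (hcov : ∀ z ∈ latBall z0 a, ∀ i ∈ latBall z0 a,
      |htE x F b (fun h => (h z : ℝ) * h i)| ≤ C1 * (1 + Real.log (n / max 1 (latDist z i : ℝ)))) (p : ℕ) :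
    htE x F b (fun h => |midY (latBall z0 a) w h| ^ p) ≤ mdpC 1 (1 / 2) p * momM C1 Aw (Real.log (n / a)) ^ p := by
  have ha1 : (1 : ℝ) ≤ a := by exact_mod_cast hw.a_pos
  have ha0 : (0 : ℝ) < a := by linarith
  have hL : 0 ≤ Real.log (n / a) := Real.log_nonneg ((one_le_div ha0).2 han)
  set L := Real.log (n / a) with hLdef
  have h2 : htE x F b (fun h => (midY (latBall z0 a) w h) ^ 2) ≤ C1 * (1 + 9) * Aw ^ 2 * (1 + L) := by
    rw [mom_htE_sq]
    exact (le_abs_self _).trans (mom_sm_second (latBall z0 a) w (fun z i => max 1 (latDist z i : ℝ))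
      (fun z i => htE x F b (fun h => (h z : ℝ) * h i)) ha1 han hAw.le hC1 (by norm_num) (fun z _ i _ => le_max_left _ _)
      hw.sum_le hw.sup_le (fun z _ r hr => mom_sm_count _ z hr) hcov)
  have hs1 : 1 ≤ Real.sqrt (20 * C1 + 1) := by
    rw [Real.one_le_sqrt]; linarith
  have hs2 : Real.sqrt (20 * C1 + 1) ^ 2 = 20 * C1 + 1 := Real.sq_sqrt (by linarith)
  have hs3 : Real.sqrt L ^ 2 = L := Real.sq_sqrt hL
  have hs4 : 0 ≤ Real.sqrt L := Real.sqrt_nonneg _
  have hM : 0 < momM C1 Aw L := by unfold momM; positivity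
  refine mom_sm_amp hx0 hx1 _ w hM ?_ h2 ?_ p
  · have : Aw * 1 * 1 ≤ momM C1 Aw L := by
      unfold momM
      exact mul_le_mul (mul_le_mul_of_nonneg_left hs1 hAw.le) (by linarith) (by norm_num) (by positivity)
    have h3 := hw.sum_le
    linarith
  · unfold momM
    rw [mul_pow, mul_pow, hs2]
    have h4 : 1 + L ≤ (1 + Real.sqrt L) ^ 2 := by nlinarith
    have h5 : 0 ≤ Aw ^ 2 * (20 * C1 + 1) := by positivity
    calc 2 * (C1 * (1 + 9) * Aw ^ 2 * (1 + L)) ≤ Aw ^ 2 * (20 * C1 + 1) * (1 + L) := by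
          have : 0 ≤ Aw ^ 2 * (1 + L) := by positivity
          nlinarith
      _ ≤ _ := mul_le_mul_of_nonneg_left h4 h5

end smear

/-! ## E. bounded traces (second paragraph of the proof of Prop. 3.6) -/

section trace

theorem mom_tr_abs_pow (t : ℝ) (p : ℕ) : |t| ^ p ≤ (max t 0) ^ p + (max (-t) 0) ^ p := by
  rcases le_total 0 t with h | h
  · rw [abs_of_nonneg h, max_eq_left h]
    have : 0 ≤ (max (-t) 0) ^ p := by positivity
    linarith
  · rw [abs_of_nonpos h, max_eq_left (by linarith : (0:ℝ) ≤ -t)]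
    have : 0 ≤ (max t 0) ^ p := by positivity
    linarith

theorem mom_tr_add_pow {a b : ℝ} (ha : 0 ≤ a) (hb : 0 ≤ b) (p : ℕ) : (a + b) ^ p ≤ 2 ^ p * (a ^ p + b ^ p) := by
  have h1 : a + b ≤ 2 * max a b := by
    have := le_max_left a b; have := le_max_right a b; linarith
  have h2 : (max a b) ^ p ≤ a ^ p + b ^ p := by
    rcases le_total a b with h | h
    · rw [max_eq_right h]; have : 0 ≤ a ^ p := by positivity
      linarith
    · rw [max_eq_left h]; have : 0 ≤ b ^ p := by positivity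
      linarith
  calc (a + b) ^ p ≤ (2 * max a b) ^ p := pow_le_pow_left₀ (by positivity) h1 p
    _ = 2 ^ p * (max a b) ^ p := mul_pow _ _ _
    _ ≤ _ := mul_le_mul_of_nonneg_left h2 (by positivity)

theorem mom_tr_sub_pow (a b : ℝ) (p : ℕ) : |a - b| ^ p ≤ 2 ^ p * (|a| ^ p + |b| ^ p) :=
  (pow_le_pow_left₀ (abs_nonneg _) (abs_sub a b) p).trans (mom_tr_add_pow (abs_nonneg _) (abs_nonneg _) p)

variable {S : Finset TV} {w : TV → ℝ}

theorem mom_tr_Y_mono (hw : ∀ u ∈ S, 0 ≤ w u) {h h' : TV → ℤ} (hh : ∀ u, h u ≤ h' u) : midY S w h ≤ midY S w h' := by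
  unfold midY
  exact Finset.sum_le_sum fun u hu => mul_le_mul_of_nonneg_left (by exact_mod_cast hh u) (hw u hu)

theorem mom_tr_Y_shift (S : Finset TV) (w : TV → ℝ) (h : TV → ℤ) (k : ℤ) :
    midY S w (fun u => h u + k) = midY S w h + k * ∑ u ∈ S, w u := by
  unfold midY
  rw [Finset.mul_sum, ← Finset.sum_add_distrib]
  exact Finset.sum_congr rfl fun u _ => by push_cast; ring

theorem mom_tr_mono_pos (hw : ∀ u ∈ S, 0 ≤ w u) (p : ℕ) : HtMono fun h => (max (midY S w h) 0) ^ p := by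
  intro h h' hh
  exact pow_le_pow_left₀ (le_max_right _ _) (max_le_max_right _ (mom_tr_Y_mono hw hh)) p

theorem mom_tr_mono_neg (hw : ∀ u ∈ S, 0 ≤ w u) (p : ℕ) : HtMono fun h => -(max (-midY S w h) 0) ^ p := by
  intro h h' hh
  exact neg_le_neg (pow_le_pow_left₀ (le_max_right _ _) (max_le_max_right _ (neg_le_neg (mom_tr_Y_mono hw hh))) p)

theorem mom_tr_adm_const (A : Finset TV) (k : ℤ) : HtAdm A (fun _ => k) (fun _ => k) := ht_adm_self fun _ _ _ _ => by simp

variable {x : ℝ} {A : Finset TV}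

/-- expectation at a constant trace `k` of a function of `Y`, bounded by the zero trace law -/
theorem mom_tr_const (hx0 : 0 < x) {Aw : ℝ} (hsum : ∑ u ∈ S, |w u| ≤ Aw) (K : ℕ) {k : ℤ} (hk : |k| ≤ K) (p : ℕ)
    (φ : ℝ → ℝ) (hφ : ∀ t, φ t ≤ |t|) (hφ0 : ∀ t, 0 ≤ φ t) :
    htE x A (fun _ => k) (fun h => (φ (midY S w h)) ^ p) ≤ 2 ^ p * (htE x A 0 (fun h => |midY S w h| ^ p) + (K * Aw) ^ p) := by
  have e : (fun _ : TV => k) = fun u => (0 : TV → ℤ) u + k := by funext u; simp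
  have hAw : 0 ≤ Aw := (Finset.sum_nonneg fun u _ => abs_nonneg (w u)).trans hsum
  rw [e, hto_shift]
  have h1 : ∀ H, HtAdm A 0 H → (φ (midY S w fun u => H u + k)) ^ p ≤ 2 ^ p * |midY S w H| ^ p + 2 ^ p * (K * Aw) ^ p := by
    intro H _
    rw [mom_tr_Y_shift, ← mul_add]
    refine le_trans (pow_le_pow_left₀ (hφ0 _) ?_ p) (mom_tr_add_pow (abs_nonneg _) (by positivity) p)
    refine (hφ _).trans ((abs_add_le _ _).trans (add_le_add le_rfl ?_))
    rw [abs_mul]
    have h2 : |(k : ℝ)| ≤ K := by exact_mod_cast hk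
    have h3 : |∑ u ∈ S, w u| ≤ Aw := (Finset.abs_sum_le_sum_abs _ _).trans hsum
    exact mul_le_mul h2 h3 (abs_nonneg _) (by positivity)
  refine (ht_E_mono hx0 A 0 h1).trans (le_of_eq ?_)
  rw [ht_E_add, ht_E_smul, ht_E_const hx0 (ht_adm_zero A)]
  ring

/-- nonnegative weights: a trace bounded by `K` costs a displacement `K Aw` -/
theorem mom_sm_trace_pos (hx0 : 0 < x) (hx1 : x ≤ 1) (hw : ∀ u ∈ S, 0 ≤ w u) {Aw : ℝ} (hsum : ∑ u ∈ S, |w u| ≤ Aw)
    {τ : TV → ℤ} (hτ : ∃ h, HtAdm A τ h) {K : ℕ} (hK : ∀ u, |τ u| ≤ K) (p : ℕ) :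
    htE x A τ (fun h => |midY S w h| ^ p) ≤ 2 * (2 ^ p * (htE x A 0 (fun h => |midY S w h| ^ p) + (K * Aw) ^ p)) := by
  have h1 : htE x A τ (fun h => |midY S w h| ^ p) ≤
      htE x A τ (fun h => (max (midY S w h) 0) ^ p) + htE x A τ (fun h => (max (-midY S w h) 0) ^ p) := by
    rw [← ht_E_add]
    exact ht_E_mono hx0 A τ fun H _ => mom_tr_abs_pow _ p
  have h2 : htE x A τ (fun h => (max (midY S w h) 0) ^ p) ≤ htE x A (fun _ => (K : ℤ)) (fun h => (max (midY S w h) 0) ^ p) :=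
    hto_order hx0 hx1 A (fun u => (abs_le.1 (hK u)).2) hτ ⟨_, mom_tr_adm_const A K⟩ (mom_tr_mono_pos hw p)
  have h3 : htE x A τ (fun h => (max (-midY S w h) 0) ^ p) ≤ htE x A (fun _ => -(K : ℤ)) (fun h => (max (-midY S w h) 0) ^ p) := by
    have := hto_order hx0 hx1 A (fun u => (abs_le.1 (hK u)).1) ⟨_, mom_tr_adm_const A (-(K:ℤ))⟩ hτ (mom_tr_mono_neg hw p)
    rw [ht_E_neg_fun, ht_E_neg_fun] at this
    linarith
  have h4 := mom_tr_const (A := A) hx0 hsum K (k := (K : ℤ)) (by simp) p (fun t => max t 0)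
    (fun t => max_le (le_abs_self t) (abs_nonneg t)) (fun t => le_max_right _ _)
  have h5 := mom_tr_const (A := A) hx0 hsum K (k := -(K : ℤ)) (by simp) p (fun t => max (-t) 0)
    (fun t => max_le (neg_le_abs t) (abs_nonneg t)) (fun t => le_max_right _ _)
  linarith

/-- positive and negative parts of a smearing are smearings -/
theorem MomSmear.pos {z0 : TV} {a : ℕ} {Aw : ℝ} (h : MomSmear z0 a Aw w) : MomSmear z0 a Aw fun u => max (w u) 0 where
  a_pos := h.a_pos
  sum_le := (Finset.sum_le_sum fun u _ => by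
    rw [abs_of_nonneg (le_max_right _ _)]; exact max_le (le_abs_self _) (abs_nonneg _)).trans h.sum_le
  sup_le := fun u hu => by
    rw [abs_of_nonneg (le_max_right _ _)]; exact (max_le (le_abs_self _) (abs_nonneg _)).trans (h.sup_le u hu)

theorem MomSmear.neg {z0 : TV} {a : ℕ} {Aw : ℝ} (h : MomSmear z0 a Aw w) : MomSmear z0 a Aw fun u => max (-w u) 0 where
  a_pos := h.a_pos
  sum_le := (Finset.sum_le_sum fun u _ => by
    rw [abs_of_nonneg (le_max_right _ _)]; exact max_le (neg_le_abs _) (abs_nonneg _)).trans h.sum_le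
  sup_le := fun u hu => by
    rw [abs_of_nonneg (le_max_right _ _)]; exact (max_le (neg_le_abs _) (abs_nonneg _)).trans (h.sup_le u hu)

theorem mom_tr_Y_split (S : Finset TV) (w : TV → ℝ) (h : TV → ℤ) :
    midY S w h = midY S (fun u => max (w u) 0) h - midY S (fun u => max (-w u) 0) h := by
  unfold midY
  rw [← Finset.sum_sub_distrib]
  refine Finset.sum_congr rfl fun u _ => ?_
  show w u * (h u : ℝ) = max (w u) 0 * h u - max (-w u) 0 * h u
  rcases le_total 0 (w u) with hu | hu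
  · rw [max_eq_left hu, max_eq_right (by linarith : -w u ≤ 0)]; ring
  · rw [max_eq_right hu, max_eq_left (by linarith : 0 ≤ -w u)]; ring

/-- signed weights, bounded trace, in terms of a bound `B` for the zero trace law -/
theorem mom_sm_trace (hx0 : 0 < x) (hx1 : x ≤ 1) {Aw B : ℝ} (hsum : ∑ u ∈ S, |w u| ≤ Aw)
    {τ : TV → ℤ} (hτ : ∃ h, HtAdm A τ h) {K : ℕ} (hK : ∀ u, |τ u| ≤ K) (p : ℕ)
    (hB1 : htE x A 0 (fun h => |midY S (fun u => max (w u) 0) h| ^ p) ≤ B)
    (hB2 : htE x A 0 (fun h => |midY S (fun u => max (-w u) 0) h| ^ p) ≤ B) :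
    htE x A τ (fun h => |midY S w h| ^ p) ≤ 4 * 4 ^ p * (B + (K * Aw) ^ p) := by
  have s1 : ∑ u ∈ S, |max (w u) 0| ≤ Aw := (Finset.sum_le_sum fun u _ => by
    rw [abs_of_nonneg (le_max_right _ _)]; exact max_le (le_abs_self _) (abs_nonneg _)).trans hsum
  have s2 : ∑ u ∈ S, |max (-w u) 0| ≤ Aw := (Finset.sum_le_sum fun u _ => by
    rw [abs_of_nonneg (le_max_right _ _)]; exact max_le (neg_le_abs _) (abs_nonneg _)).trans hsum
  have h1 := mom_sm_trace_pos (A := A) (S := S) (w := fun u => max (w u) 0) hx0 hx1 (fun u _ => le_max_right _ _) s1 hτ hK p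
  have h2 := mom_sm_trace_pos (A := A) (S := S) (w := fun u => max (-w u) 0) hx0 hx1 (fun u _ => le_max_right _ _) s2 hτ hK p
  have h3 : htE x A τ (fun h => |midY S w h| ^ p) ≤
      2 ^ p * (htE x A τ (fun h => |midY S (fun u => max (w u) 0) h| ^ p) + htE x A τ (fun h => |midY S (fun u => max (-w u) 0) h| ^ p)) := by
    rw [← ht_E_add, ← ht_E_smul]
    refine ht_E_mono hx0 A τ fun H _ => ?_
    rw [mom_tr_Y_split S w H]
    exact mom_tr_sub_pow _ _ p
  have h4 : (4:ℝ) ^ p = 2 ^ p * 2 ^ p := by rw [← mul_pow]; norm_num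
  have h5 : (0:ℝ) < 2 ^ p := by positivity
  have h6 : htE x A τ (fun h => |midY S (fun u => max (w u) 0) h| ^ p) + htE x A τ (fun h => |midY S (fun u => max (-w u) 0) h| ^ p)
      ≤ 4 * (2 ^ p * (B + (K * Aw) ^ p)) := by
    have a1 : 2 ^ p * (htE x A 0 (fun h => |midY S (fun u => max (w u) 0) h| ^ p) + (K * Aw) ^ p) ≤ 2 ^ p * (B + (K * Aw) ^ p) :=
      mul_le_mul_of_nonneg_left (by linarith) h5.le
    have a2 : 2 ^ p * (htE x A 0 (fun h => |midY S (fun u => max (-w u) 0) h| ^ p) + (K * Aw) ^ p) ≤ 2 ^ p * (B + (K * Aw) ^ p) :=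
      mul_le_mul_of_nonneg_left (by linarith) h5.le
    linarith
  calc htE x A τ (fun h => |midY S w h| ^ p) ≤ 2 ^ p * (4 * (2 ^ p * (B + (K * Aw) ^ p))) := h3.trans (mul_le_mul_of_nonneg_left h6 h5.le)
    _ = _ := by rw [h4]; ring

end trace

/-- the constant of Prop. 3.6 -/
noncomputable def momC (C1 : ℝ) (p : ℕ) : ℝ := 4 * 4 ^ p * (mdpC 1 (1 / 2) p * Real.sqrt (20 * C1 + 1) ^ p + 1)

theorem momC_pos (C1 : ℝ) (p : ℕ) : 0 < momC C1 p := by
  have := mdpC_pos 1 (1 / 2) p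
  unfold momC; positivity

/-- **Prop. 3.6 (smearing with bounded boundary values)** for one height problem `(F, τ)`, from the logarithmic covariance bound of the
zero trace problem on the ball of the smearing.      TEX[prop:smearing] -/
theorem mom_smear {x : ℝ} (hx0 : 0 < x) (hx1 : x ≤ 1) {C1 : ℝ} (hC1 : 0 ≤ C1) {F : Finset TV} {z0 : TV} {a : ℕ} {n Aw : ℝ}
    {w : TV → ℝ} (hAw : 0 < Aw) (hw : MomSmear z0 a Aw w) (han : (a : ℝ) ≤ n)
    (hcov : ∀ z ∈ latBall z0 a, ∀ i ∈ latBall z0 a,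
      |htE x F 0 (fun h => (h z : ℝ) * h i)| ≤ C1 * (1 + Real.log (n / max 1 (latDist z i : ℝ))))
    {τ : TV → ℤ} (hτ : ∃ h, HtAdm F τ h) {K : ℕ} (hK : ∀ u, |τ u| ≤ K) (p : ℕ) :
    htE x F τ (fun h => |midY (latBall z0 a) w h| ^ p) ≤ momC C1 p * (Aw * (1 + K + Real.sqrt (Real.log (n / a)))) ^ p := by
  set L := Real.log (n / a) with hL
  have h1 := mom_sm_trace (A := F) hx0 hx1 hw.sum_le hτ hK p (mom_sm_zero hx0.le hx1 hC1 hAw hw.pos han hcov p)
    (mom_sm_zero hx0.le hx1 hC1 hAw hw.neg han hcov p)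
  refine h1.trans ?_
  have hs : 0 ≤ Real.sqrt L := Real.sqrt_nonneg _
  have hc : 0 ≤ Real.sqrt (20 * C1 + 1) := Real.sqrt_nonneg _
  have hK0 : (0:ℝ) ≤ K := Nat.cast_nonneg _
  have hmd := mdpC_pos 1 (1 / 2) p
  set T := Aw * (1 + K + Real.sqrt L) with hT
  have hT0 : 0 ≤ T := by positivity
  have e1 : momM C1 Aw L ^ p ≤ Real.sqrt (20 * C1 + 1) ^ p * T ^ p := by
    rw [← mul_pow]
    refine pow_le_pow_left₀ (by unfold momM; positivity) ?_ p
    unfold momM
    have : Aw * (1 + Real.sqrt L) ≤ T := mul_le_mul_of_nonneg_left (by linarith) hAw.le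
    calc Aw * Real.sqrt (20 * C1 + 1) * (1 + Real.sqrt L) = Real.sqrt (20 * C1 + 1) * (Aw * (1 + Real.sqrt L)) := by ring
      _ ≤ _ := mul_le_mul_of_nonneg_left this hc
  have e2 : ((K : ℝ) * Aw) ^ p ≤ T ^ p := by
    refine pow_le_pow_left₀ (by positivity) ?_ p
    rw [hT, mul_comm]
    exact mul_le_mul_of_nonneg_left (by linarith) hAw.le
  unfold momC
  have e3 : mdpC 1 (1 / 2) p * momM C1 Aw L ^ p ≤ mdpC 1 (1 / 2) p * (Real.sqrt (20 * C1 + 1) ^ p * T ^ p) :=
    mul_le_mul_of_nonneg_left e1 hmd.le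
  calc 4 * 4 ^ p * (mdpC 1 (1 / 2) p * momM C1 Aw L ^ p + ((K : ℝ) * Aw) ^ p)
      ≤ 4 * 4 ^ p * (mdpC 1 (1 / 2) p * (Real.sqrt (20 * C1 + 1) ^ p * T ^ p) + T ^ p) :=
        mul_le_mul_of_nonneg_left (add_le_add e3 e2) (by positivity)
    _ = _ := by ring

/-! ## F. locality in the boundary function, hex norm, and the exit `exit_mom_smear` -/

section far

theorem mom_out_of_cl {A : Finset TV} {u : TV} (h1 : u ∈ latCl A) (h2 : u ∉ A) : u ∈ latOut A := by
  unfold latCl at h1; unfold latOut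
  rcases Finset.mem_union.1 h1 with h | h
  · exact absurd h h2
  · exact Finset.mem_sdiff.2 ⟨h, h2⟩

theorem mom_cl_of_mem {A : Finset TV} {u : TV} (h : u ∈ A) : u ∈ latCl A := lat_mem_cl.2 (Or.inl h)

theorem mom_cl_of_nb {A : Finset TV} {u d : TV} (h : u ∈ A) (hd : d ∈ latDirs) : u + d ∈ latCl A :=
  lat_mem_cl.2 (Or.inr ⟨u, h, lat_adj_add u hd⟩)

/-- glue `h` on `latCl A` with `b'` elsewhere -/
def momGlue (A : Finset TV) (b' h : TV → ℤ) : TV → ℤ := fun u => if u ∈ latCl A then h u else b' u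

theorem mom_glue_adm {A : Finset TV} {b b' h : TV → ℤ} (hb : ∀ u ∈ latOut A, b u = b' u) (hh : HtAdm A b h) :
    HtAdm A b' (momGlue A b' h) := by
  refine ⟨fun u hu => ?_, fun u hu d hd => ?_⟩
  · unfold momGlue
    split_ifs with hc
    · rw [hh.1 u hu]; exact hb u (mom_out_of_cl hc hu)
    · rfl
  · unfold momGlue
    rw [if_pos (mom_cl_of_nb hu hd), if_pos (mom_cl_of_mem hu)]
    exact hh.2 u hu d hd

theorem mom_glue_glue {A : Finset TV} {b b' h : TV → ℤ} (hh : HtAdm A b h) : momGlue A b (momGlue A b' h) = h := by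
  funext u
  unfold momGlue
  split_ifs with hc
  · rfl
  · exact (hh.1 u fun hu => hc (mom_cl_of_mem hu)).symm

theorem mom_glue_eq {A : Finset TV} (b' h : TV → ℤ) : ∀ u ∈ latCl A, momGlue A b' h u = h u := fun u hu => by
  unfold momGlue; rw [if_pos hu]

/-- unnormalised: only the values of the boundary function on `latOut A` matter for observables which read `latCl A` -/
theorem mom_sum_far (x : ℝ) {A : Finset TV} {b b' : TV → ℤ} (hb : ∀ u ∈ latOut A, b u = b' u) {G : (TV → ℤ) → ℝ}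
    (hG : HtLoc (latCl A) G) : ∑ h ∈ htCfg A b, htWt x A h * G h = ∑ h ∈ htCfg A b', htWt x A h * G h := by
  refine Finset.sum_bij' (fun h _ => momGlue A b' h) (fun h _ => momGlue A b h) ?_ ?_ ?_ ?_ ?_
  · intro h hh; exact ht_mem_cfg.2 (mom_glue_adm hb (ht_mem_cfg.1 hh))
  · intro h hh; exact ht_mem_cfg.2 (mom_glue_adm (fun u hu => (hb u hu).symm) (ht_mem_cfg.1 hh))
  · intro h hh; exact mom_glue_glue (ht_mem_cfg.1 hh)
  · intro h hh; exact mom_glue_glue (ht_mem_cfg.1 hh)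
  · intro h _
    unfold htWt
    rw [ht_N_congr (mom_glue_eq b' h), hG _ _ (mom_glue_eq b' h)]

/-- only the values of the boundary function on `latOut A` matter for observables which read `latCl A` -/
theorem mom_htE_far (x : ℝ) {A : Finset TV} {b b' : TV → ℤ} (hb : ∀ u ∈ latOut A, b u = b' u) {G : (TV → ℤ) → ℝ}
    (hG : HtLoc (latCl A) G) : htE x A b G = htE x A b' G := by
  unfold htE htZ
  rw [mom_sum_far x hb hG]
  have := mom_sum_far x hb (G := fun _ => 1) (fun _ _ _ => rfl)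
  simp only [mul_one] at this
  rw [this]

end far

section hexnorm

theorem mom_latN_add (u v : TV) : latN (u + v) ≤ latN u + latN v := by
  obtain ⟨a, b⟩ := u
  obtain ⟨c, d⟩ := v
  show max (max (a + c).natAbs (b + d).natAbs) (a + c + (b + d)).natAbs ≤ max (max a.natAbs b.natAbs) (a + b).natAbs + max (max c.natAbs d.natAbs) (c + d).natAbs
  have h1 : (a + c).natAbs ≤ a.natAbs + c.natAbs := Int.natAbs_add_le a c
  have h2 : (b + d).natAbs ≤ b.natAbs + d.natAbs := Int.natAbs_add_le b d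
  have h3 : (a + c + (b + d)).natAbs ≤ (a + b).natAbs + (c + d).natAbs := by
    have := Int.natAbs_add_le (a + b) (c + d)
    rwa [show a + b + (c + d) = a + c + (b + d) by ring] at this
  generalize (a + c).natAbs = n1 at *
  generalize (b + d).natAbs = n2 at *
  generalize (a + c + (b + d)).natAbs = n3 at *
  generalize (a + b).natAbs = n4 at *
  generalize (c + d).natAbs = n5 at *
  generalize a.natAbs = n6 at *
  generalize b.natAbs = n7 at *
  generalize c.natAbs = n8 at *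
  generalize d.natAbs = n9 at *
  omega

theorem mom_latN_neg (u : TV) : latN (-u) = latN u := by
  obtain ⟨a, b⟩ := u
  show max (max (-a).natAbs (-b).natAbs) (-a + -b).natAbs = max (max a.natAbs b.natAbs) (a + b).natAbs
  rw [Int.natAbs_neg, Int.natAbs_neg, show -a + -b = -(a + b) by ring, Int.natAbs_neg]

theorem mom_latDist_tri (u v w : TV) : latDist u w ≤ latDist u v + latDist v w := by
  unfold latDist
  have := mom_latN_add (v - u) (w - v)
  rwa [show v - u + (w - v) = w - u by abel] at this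

theorem mom_latDist_comm (u v : TV) : latDist u v = latDist v u := by
  unfold latDist
  rw [← mom_latN_neg, neg_sub]

theorem mom_latDist_self (u : TV) : latDist u u = 0 := by
  unfold latDist; rw [sub_self]; rfl

theorem mom_ball_sub {c c' : TV} {r r' : ℕ} (h : latDist c' c + r ≤ r') : latBall c r ⊆ latBall c' r' := by
  intro u hu
  rw [mom_sm_mem_ball] at hu ⊢
  have := mom_latDist_tri c' c u
  omega

theorem mom_sm_ball_mono (c : TV) {r r' : ℕ} (h : r ≤ r') : latBall c r ⊆ latBall c r' :=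
  mom_ball_sub (by rw [mom_latDist_self]; omega)

theorem mom_center_mem (c : TV) (r : ℕ) : c ∈ latBall c r := by
  rw [mom_sm_mem_ball, mom_latDist_self]; exact Nat.zero_le _

end hexnorm

section exit

/-- a nonempty finite set has a nonempty outer boundary -/
theorem mom_out_nonempty {F : Finset TV} (hF : F.Nonempty) : (latOut F).Nonempty := by
  obtain ⟨u, hu, hmax⟩ := Finset.exists_max_image F (fun u => u.1) hF
  refine ⟨u + (1, 0), ?_⟩
  unfold latOut
  refine Finset.mem_sdiff.2 ⟨Finset.mem_biUnion.2 ⟨u, hu, lat_mem_nb.2 (lat_adj_add u (by decide))⟩, fun h => ?_⟩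
  have := hmax _ h
  simp at this

theorem MomSm.toSmear {z0 : TV} {a : ℕ} {A : ℝ} {w : TV →₀ ℝ} (h : MomSm z0 a A w) (ha : 1 ≤ a) : MomSmear z0 a A w where
  a_pos := ha
  sum_le := by
    rw [← Finset.sum_subset h.supp (fun u _ hu => by rw [Finsupp.notMem_support_iff.1 hu, abs_zero])]
    exact h.l1
  sup_le := fun u _ => by
    rw [le_div_iff₀ (by positivity)]; exact h.sup u

theorem mom_latArr_ball {z0 : TV} {a : ℕ} {A : ℝ} {w : TV →₀ ℝ} (hw : MomSm z0 a A w) (h : TV → ℤ) :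
    latArr w h = midY (latBall z0 a) w h := by
  unfold latArr midY Finsupp.sum
  exact Finset.sum_subset hw.supp fun u _ hu => by
    show w u * (h u : ℝ) = 0
    rw [Finsupp.notMem_support_iff.1 hu, zero_mul]

/-- the covariance hypothesis of `mom_smear` from the statement of `exit_mom_cov` -/
theorem mom_cov_ball {x C0 : ℝ} (hC0 : 0 < C0)
    (H : ∀ (F : Finset TV) (z w : TV) (n : ℕ), MomCo F → latBall z (latDist z w) ⊆ F → ¬ latBall z n ⊆ F →
      0 ≤ htE x F 0 (fun h => (h z : ℝ) * (h w : ℝ)) ∧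
      htE x F 0 (fun h => (h z : ℝ) * (h w : ℝ)) ≤ C0 * (1 + Real.log ((n : ℝ) / max 1 (latDist z w : ℝ))))
    {F : Finset TV} {z0 : TV} {a n : ℕ} (hCo : MomCo F) (ha : 1 ≤ a) (hball : latBall z0 (3 * a) ⊆ F) (hn : ¬ latBall z0 n ⊆ F) :
    3 * a < n ∧ ∀ z ∈ latBall z0 a, ∀ i ∈ latBall z0 a,
      |htE x F 0 (fun h => (h z : ℝ) * h i)| ≤ 2 * C0 * (1 + Real.log ((n : ℝ) / max 1 (latDist z i : ℝ))) := by
  have hn3 : 3 * a < n := by
    by_contra hc
    exact hn ((mom_sm_ball_mono z0 (not_lt.1 hc)).trans hball)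
  refine ⟨hn3, fun z hz i hi => ?_⟩
  rw [mom_sm_mem_ball] at hz hi
  have hzi : latDist z i ≤ 2 * a := by
    have := mom_latDist_tri z z0 i
    rw [mom_latDist_comm z z0] at this
    omega
  obtain ⟨h1, h2⟩ := H F z i (n + a) hCo ((mom_ball_sub (by omega)).trans hball)
    (fun hc => hn ((mom_ball_sub (by rw [mom_latDist_comm z z0]; omega)).trans hc))
  rw [abs_of_nonneg h1]
  refine h2.trans ?_
  set bb : ℝ := max 1 (latDist z i : ℝ) with hbb
  have hbb1 : 1 ≤ bb := le_max_left _ _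
  have hbb0 : 0 < bb := by linarith
  have hnR : (0:ℝ) < n := by exact_mod_cast (by omega : 0 < n)
  have hbn : bb ≤ n := by
    refine max_le (by exact_mod_cast (by omega : 1 ≤ n)) ?_
    exact_mod_cast (by omega : latDist z i ≤ n)
  have hl : 0 ≤ Real.log ((n : ℝ) / bb) := Real.log_nonneg ((one_le_div hbb0).2 hbn)
  have h3 : Real.log (((n + a : ℕ) : ℝ) / bb) ≤ 1 + Real.log ((n : ℝ) / bb) := by
    have e1 : ((n + a : ℕ) : ℝ) / bb ≤ 2 * ((n : ℝ) / bb) := by
      rw [← mul_div_assoc]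
      refine div_le_div_of_nonneg_right ?_ hbb0.le
      have : ((n + a : ℕ) : ℝ) ≤ ((2 * n : ℕ) : ℝ) := by exact_mod_cast (by omega : n + a ≤ 2 * n)
      push_cast at this ⊢; linarith
    have e2 : Real.log (2 * ((n : ℝ) / bb)) = Real.log 2 + Real.log ((n : ℝ) / bb) :=
      Real.log_mul (by norm_num) (by positivity)
    have e3 : Real.log 2 ≤ 1 := by have := Real.log_two_lt_d9; linarith
    have e4 : Real.log (((n + a : ℕ) : ℝ) / bb) ≤ Real.log (2 * ((n : ℝ) / bb)) :=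
      Real.log_le_log (by positivity) e1
    linarith
  nlinarith

/-- **`exit_mom_smear` from `exit_mom_cov`**: Prop. 3.6 in the form typed by helper122 (Exit/MomSmear.lean).      TEX[prop:smearing] -/
theorem mom_smear_exit {x : ℝ} (hx0 : 0 < x) (hx1 : x ≤ 1)
    (hcov : ∃ C : ℝ, 0 < C ∧ ∀ (F : Finset TV) (z w : TV) (n : ℕ),
      MomCo F → latBall z (latDist z w) ⊆ F → ¬ latBall z n ⊆ F →
      0 ≤ htE x F 0 (fun h => (h z : ℝ) * (h w : ℝ)) ∧
      htE x F 0 (fun h => (h z : ℝ) * (h w : ℝ)) ≤ C * (1 + Real.log ((n : ℝ) / max 1 (latDist z w : ℝ)))) (p : ℕ) :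
    ∃ C : ℝ, 0 < C ∧ ∀ (F : Finset TV) (b : TV → ℤ) (K : ℝ) (z0 : TV) (a n : ℕ) (A : ℝ) (w : TV →₀ ℝ),
      MomCo F → (∀ u ∈ latOut F, |(b u : ℝ)| ≤ K) → 1 ≤ a → latBall z0 (3 * a) ⊆ F → ¬ latBall z0 n ⊆ F →
      MomSm z0 a A w →
      htE x F b (fun h => |latArr w h| ^ p) ≤ (C * A * (1 + K + Real.sqrt (Real.log ((n : ℝ) / a)))) ^ p := by
  classical
  obtain ⟨C0, hC0, H⟩ := hcov
  set m : ℝ := max 1 (momC (2 * C0) p) with hm
  have hm1 : 1 ≤ m := le_max_left _ _
  refine ⟨2 * m, by positivity, fun F b K z0 a n A w hCo hb ha hball hn hw => ?_⟩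
  rcases Nat.eq_zero_or_pos p with rfl | hp
  · simp only [pow_zero]; exact ht_E_one_le hx0 F b
  obtain ⟨hn3, hcv⟩ := mom_cov_ball hC0 H hCo ha hball hn
  -- `K ≥ 0`, `A ≥ 0`
  obtain ⟨v, hv⟩ := mom_out_nonempty ⟨z0, hball (mom_center_mem z0 _)⟩
  have hK0 : 0 ≤ K := (abs_nonneg _).trans (hb v hv)
  have hA0 : 0 ≤ A := (Finset.sum_nonneg fun u _ => abs_nonneg (w u)).trans hw.l1
  set L := Real.log ((n : ℝ) / a) with hL
  have hs : 0 ≤ Real.sqrt L := Real.sqrt_nonneg _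
  have hR0 : 0 ≤ (2 * m * A * (1 + K + Real.sqrt L)) ^ p := by positivity
  -- the boundary function is cut off away from `latOut F`
  set b' : TV → ℤ := fun u => if u ∈ latOut F then b u else 0 with hb'
  have hloc : HtLoc (latCl F) fun h => |latArr w h| ^ p := by
    intro h h' hh
    show |latArr w h| ^ p = |latArr w h'| ^ p
    rw [mom_latArr_ball hw, mom_latArr_ball hw]
    unfold midY
    congr 2
    refine Finset.sum_congr rfl fun u hu => ?_
    rw [hh u (mom_cl_of_mem (hball (mom_sm_ball_mono z0 (by omega) hu)))]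
  rw [mom_htE_far x (b' := b') (fun u hu => by
    show b u = if u ∈ latOut F then b u else 0
    rw [if_pos hu]) hloc]
  by_cases hfe : ∃ h, HtAdm F b' h
  swap
  · have : htCfg F b' = ∅ := by
      rw [Finset.eq_empty_iff_forall_notMem]
      exact fun h hh => hfe ⟨h, ht_mem_cfg.1 hh⟩
    unfold htE
    rw [this, Finset.sum_empty, zero_div]
    exact hR0
  rcases hA0.eq_or_lt with hA | hA
  · -- `A = 0`: the statistic vanishes
    have hw0 : w = 0 := by
      ext u
      have h1 := hw.sup u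
      rw [← hA] at h1
      have h2 : (0:ℝ) < (a : ℝ) ^ 2 := by positivity
      have h3 : |w u| ≤ 0 := by
        by_contra hc
        have := mul_pos (not_le.1 hc) h2
        linarith
      simpa using abs_nonpos_iff.1 h3
    have : (fun h : TV → ℤ => |latArr w h| ^ p) = fun _ => 0 := by
      funext h
      rw [hw0]
      simp [latArr, hp.ne']
    rw [this, ht_E_zero]
    exact hR0
  have hK' : ∀ u, |b' u| ≤ ((⌈K⌉₊ : ℕ) : ℤ) := by
    intro u
    rw [hb']
    show |if u ∈ latOut F then b u else 0| ≤ _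
    split_ifs with hu
    · have h1 := (hb u hu).trans (Nat.le_ceil K)
      exact_mod_cast h1
    · simp
  have han : (a : ℝ) ≤ n := by exact_mod_cast (by omega : a ≤ n)
  have key := mom_smear hx0 hx1 (by positivity : (0:ℝ) ≤ 2 * C0) hA (hw.toSmear ha) han hcv hfe hK' p
  have e0 : (fun h : TV → ℤ => |latArr w h| ^ p) = fun h => |midY (latBall z0 a) w h| ^ p := by
    funext h; rw [mom_latArr_ball hw]
  rw [e0]
  refine key.trans ?_
  have hceil : ((⌈K⌉₊ : ℕ) : ℝ) ≤ K + 1 := (Nat.ceil_lt_add_one hK0).le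
  have e1 : A * (1 + (⌈K⌉₊ : ℕ) + Real.sqrt L) ≤ 2 * A * (1 + K + Real.sqrt L) := by
    have : 1 + ((⌈K⌉₊ : ℕ) : ℝ) + Real.sqrt L ≤ 2 * (1 + K + Real.sqrt L) := by linarith
    calc A * (1 + (⌈K⌉₊ : ℕ) + Real.sqrt L) ≤ A * (2 * (1 + K + Real.sqrt L)) := mul_le_mul_of_nonneg_left this hA.le
      _ = _ := by ring
  have e2 : momC (2 * C0) p ≤ m ^ p := (le_max_right _ _).trans (le_self_pow₀ hm1 hp.ne')
  calc momC (2 * C0) p * (A * (1 + (⌈K⌉₊ : ℕ) + Real.sqrt L)) ^ p
      ≤ m ^ p * (2 * A * (1 + K + Real.sqrt L)) ^ p :=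
        mul_le_mul e2 (pow_le_pow_left₀ (by positivity) e1 p) (by positivity) (by positivity)
    _ = (2 * m * A * (1 + K + Real.sqrt L)) ^ p := by rw [← mul_pow]; congr 1; ring

end exit

/-! ## G. hexagons have no hole -/

section hexco

theorem mom_R_dline {s : Set (ℤ × ℤ)} (x y : ℤ) (k : ℕ) (h : ∀ j : ℕ, j ≤ k → (x + j, y - j) ∈ s) : TscR tscG s (x, y) (x + k, y - k) := by
  induction k with
  | zero => simp only [Nat.cast_zero, add_zero, sub_zero]; exact tsc_R_refl _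
  | succ k ih =>
    refine (ih (fun j hj => h j (by omega))).tail ⟨(tsc_adj_iff _ _).2 (by dsimp only; push_cast; omega), h k (by omega), h (k + 1) le_rfl⟩

theorem mom_not_mem_ball {c u : TV} {r : ℕ} : u ∉ latBall c r ↔
    (c.1 + r < u.1 ∨ u.1 < c.1 - r) ∨ (c.2 + r < u.2 ∨ u.2 < c.2 - r) ∨ (c.1 + c.2 + r < u.1 + u.2 ∨ u.1 + u.2 < c.1 + c.2 - r) := by
  rw [lat_mem_ball]
  obtain ⟨a, b⟩ := u
  obtain ⟨c1, c2⟩ := c
  show ¬ max (max (a - c1).natAbs (b - c2).natAbs) (a - c1 + (b - c2)).natAbs ≤ r ↔ _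
  simp only [max_le_iff, not_and_or, not_le]
  omega

/-- the union of the four coordinate half planes off the hexagon -/
def momU (c : TV) (r : ℕ) : Set (ℤ × ℤ) :=
  ((Set.Ioi (c.1 + r) ×ˢ Set.univ ∪ Set.univ ×ˢ Set.Ioi (c.2 + r)) ∪ Set.Iio (c.1 - r) ×ˢ Set.univ) ∪ Set.univ ×ˢ Set.Iio (c.2 - r)

theorem mom_U_conn (c : TV) (r : ℕ) : TscConn tscG (momU c r) := by
  unfold momU
  have h1 := tsc_conn_prod (Set.Ioi (c.1 + r)) Set.univ Set.ordConnected_Ioi Set.ordConnected_univ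
  have h2 := tsc_conn_prod Set.univ (Set.Ioi (c.2 + r)) Set.ordConnected_univ Set.ordConnected_Ioi
  have h3 := tsc_conn_prod (Set.Iio (c.1 - r)) Set.univ Set.ordConnected_Iio Set.ordConnected_univ
  have h4 := tsc_conn_prod Set.univ (Set.Iio (c.2 - r)) Set.ordConnected_univ Set.ordConnected_Iio
  have h12 := tsc_conn_union h1 h2 (a := (c.1 + r + 1, c.2 + r + 1)) (b := (c.1 + r + 1, c.2 + r + 1))
    ⟨by simp, trivial⟩ ⟨trivial, by simp⟩ (Or.inl rfl)
  have h123 := tsc_conn_union h12 h3 (a := (c.1 - r - 1, c.2 + r + 1)) (b := (c.1 - r - 1, c.2 + r + 1))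
    (Or.inr ⟨trivial, by simp⟩) ⟨by simp, trivial⟩ (Or.inl rfl)
  exact tsc_conn_union h123 h4 (a := (c.1 - r - 1, c.2 - r - 1)) (b := (c.1 - r - 1, c.2 - r - 1))
    (Or.inr ⟨by simp, trivial⟩) ⟨trivial, by simp⟩ (Or.inl rfl)

theorem mom_mem_U {c u : TV} {r : ℕ} : u ∈ momU c r ↔ (c.1 + r < u.1 ∨ u.1 < c.1 - r) ∨ (c.2 + r < u.2 ∨ u.2 < c.2 - r) := by
  unfold momU
  simp only [Set.mem_union, Set.mem_prod, Set.mem_Ioi, Set.mem_Iio, Set.mem_univ, and_true, true_and]
  tauto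

/-- **hexagons have no hole** -/
theorem mom_ball_co (c : TV) (r : ℕ) : MomCo (latBall c r) := by
  set s : Set TV := ((latBall c r : Finset TV) : Set TV)ᶜ with hs
  have hmem : ∀ u : TV, u ∈ s ↔ u ∉ latBall c r := fun u => by rw [hs]; simp
  have hUs : momU c r ⊆ s := by
    intro u hu
    rw [hmem, mom_not_mem_ball]
    rcases mom_mem_U.1 hu with h | h
    · exact Or.inl h
    · exact Or.inr (Or.inl h)
  have key : ∀ u ∈ s, ∃ u' ∈ momU c r, TscR tscG s u u' := by
    intro u hu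
    rcases mom_not_mem_ball.1 ((hmem u).1 hu) with h | h | h | h
    · exact ⟨u, mom_mem_U.2 (Or.inl h), tsc_R_refl _⟩
    · exact ⟨u, mom_mem_U.2 (Or.inr h), tsc_R_refl _⟩
    · -- move along `(1,-1)`
      obtain ⟨a, b⟩ := u
      simp only at h
      refine ⟨(a + ((c.1 + r + 1 - a).toNat : ℕ), b - ((c.1 + r + 1 - a).toNat : ℕ)), mom_mem_U.2 (Or.inl (Or.inl ?_)),
        mom_R_dline a b _ fun j _ => ?_⟩
      · simp only; omega
      · rw [hmem, mom_not_mem_ball]
        refine Or.inr (Or.inr (Or.inl ?_))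
        simp only; omega
    · -- move along `(-1,1)`: reverse of a `(1,-1)` line
      obtain ⟨a, b⟩ := u
      simp only at h
      set k : ℕ := (a - (c.1 - r - 1)).toNat with hk
      have := mom_R_dline (s := s) (a - k) (b + k) k fun j _ => by
        rw [hmem, mom_not_mem_ball]
        refine Or.inr (Or.inr (Or.inr ?_))
        simp only; omega
      rw [sub_add_cancel, add_sub_cancel_right] at this
      refine ⟨(a - k, b + k), mom_mem_U.2 (Or.inl (Or.inr ?_)), tsc_R_symm this⟩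
      simp only; omega
  intro u hu v hv
  obtain ⟨u', hu', h1⟩ := key u hu
  obtain ⟨v', hv', h2⟩ := key v hv
  exact (h1.trans (tsc_R_mono hUs (mom_U_conn c r u' hu' v' hv'))).trans (tsc_R_symm h2)

end hexco

/-! ## H. from function weights on a ball to `MomSm`; the field `LimPlane.mom` -/

section plane
open Filter Topology

/-- the array of a weight function cut off to a ball -/
noncomputable def momArr (u0 : TV) (a : ℕ) (w : TV → ℝ) : TV →₀ ℝ :=
  Finsupp.onFinset (latBall u0 a) (fun u => if u ∈ latBall u0 a then w u else 0) (fun u hu => by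
    by_contra hc
    exact hu (if_neg hc))

theorem mom_arr_apply (u0 : TV) (a : ℕ) (w : TV → ℝ) (u : TV) : momArr u0 a w u = if u ∈ latBall u0 a then w u else 0 := rfl

theorem mom_arr_supp (u0 : TV) (a : ℕ) (w : TV → ℝ) : (momArr u0 a w).support ⊆ latBall u0 a := Finsupp.support_onFinset_subset

theorem mom_arr_sum (u0 : TV) (a : ℕ) (w : TV → ℝ) (g : TV → ℝ → ℝ) (hg : ∀ u, g u 0 = 0) :
    (momArr u0 a w).sum g = ∑ u ∈ latBall u0 a, g u (w u) := by
  unfold Finsupp.sum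
  rw [Finset.sum_subset (mom_arr_supp u0 a w) (fun u _ hu => by rw [Finsupp.notMem_support_iff.1 hu, hg])]
  exact Finset.sum_congr rfl fun u hu => by rw [mom_arr_apply, if_pos hu]

theorem mom_arr_latArr (u0 : TV) (a : ℕ) (w : TV → ℝ) (h : TV → ℤ) : latArr (momArr u0 a w) h = ∑ u ∈ latBall u0 a, w u * (h u : ℝ) :=
  mom_arr_sum u0 a w (fun u c => c * (h u : ℝ)) fun _ => zero_mul _

theorem mom_arr_latTot (u0 : TV) (a : ℕ) (w : TV → ℝ) : latTot (momArr u0 a w) = ∑ u ∈ latBall u0 a, w u :=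
  mom_arr_sum u0 a w (fun _ c => c) fun _ => rfl

/-- weights bounded by `1/a²` on a ball of radius `a`: a smearing with weight bound `9` -/
theorem mom_arr_sm (u0 : TV) {a : ℕ} (ha : 1 ≤ a) {w : TV → ℝ} (hw : ∀ u, |w u| ≤ 1 / (a : ℝ) ^ 2) : MomSm u0 a 9 (momArr u0 a w) where
  supp := mom_arr_supp u0 a w
  l1 := by
    have ha1 : (1:ℝ) ≤ a := by exact_mod_cast ha
    have h1 : ((latBall u0 a).card : ℝ) ≤ (2 * (a:ℝ) + 1) ^ 2 := by exact_mod_cast mom_sm_ball_card u0 a
    calc ∑ u ∈ (momArr u0 a w).support, |momArr u0 a w u| ≤ ∑ u ∈ latBall u0 a, |momArr u0 a w u| :=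
          Finset.sum_le_sum_of_subset_of_nonneg (mom_arr_supp u0 a w) fun _ _ _ => abs_nonneg _
      _ ≤ ∑ _u ∈ latBall u0 a, 1 / (a : ℝ) ^ 2 := Finset.sum_le_sum fun u hu => by rw [mom_arr_apply, if_pos hu]; exact hw u
      _ = (latBall u0 a).card * (1 / (a : ℝ) ^ 2) := by rw [Finset.sum_const, nsmul_eq_mul]
      _ ≤ (2 * (a:ℝ) + 1) ^ 2 * (1 / (a : ℝ) ^ 2) := mul_le_mul_of_nonneg_right h1 (by positivity)
      _ ≤ 9 := by
        rw [mul_one_div, div_le_iff₀ (by positivity)]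
        nlinarith
  sup := fun u => by
    have ha0 : (0:ℝ) < (a : ℝ) ^ 2 := by positivity
    have h1 : |momArr u0 a w u| ≤ 1 / (a : ℝ) ^ 2 := by
      rw [mom_arr_apply]
      split_ifs
      · exact hw u
      · rw [abs_zero]; positivity
    have := (le_div_iff₀ ha0).1 h1
    linarith

/-- **the field `mom` of `LimPlane`** (TEX[prop:plane-moments] for the plane functional `htPl`) from the field `lim` and the statement of `exit_mom_plane` -/
theorem mom_plane_field {x : ℝ}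
    (hlim : ∀ (S : Finset TV) (G : (TV → ℤ) → ℝ), HtLoc S G → HtGrad G →
      Tendsto (fun R : ℕ => htE x (latBall 0 R) 0 G) atTop (𝓝 (htPl x G)))
    (hpl : ∃ C0 : ℕ, ∀ p : ℕ, ∃ C : ℝ, 0 < C ∧ ∀ (F : Finset TV) (z0 : TV) (a : ℕ) (A : ℝ) (w : TV →₀ ℝ),
      MomCo F → 1 ≤ a → latBall z0 (C0 * a) ⊆ F → MomSm z0 a A w → latTot w = 0 →
      htE x F 0 (fun h => |latArr w h| ^ p) ≤ (C * A) ^ p) :
    ∀ m : ℕ, ∃ C : ℝ, ∀ (u0 : TV) (a : ℕ) (w : TV → ℝ), 1 ≤ a → (∀ u, |w u| ≤ 1 / (a : ℝ) ^ 2) → ∑ u ∈ latBall u0 a, w u = 0 →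
      htPl x (fun h => (∑ u ∈ latBall u0 a, w u * (h u : ℝ)) ^ (2 * m)) ≤ C := by
  obtain ⟨C0, H⟩ := hpl
  intro m
  obtain ⟨C, _, HC⟩ := H (2 * m)
  refine ⟨(C * 9) ^ (2 * m), fun u0 a w ha hw h0 => ?_⟩
  have hloc : HtLoc (latBall u0 a) fun h => (∑ u ∈ latBall u0 a, w u * (h u : ℝ)) ^ (2 * m) := by
    intro h h' hh
    show (∑ u ∈ latBall u0 a, w u * (h u : ℝ)) ^ (2 * m) = (∑ u ∈ latBall u0 a, w u * (h' u : ℝ)) ^ (2 * m)
    congr 1
    exact Finset.sum_congr rfl fun u hu => by rw [hh u hu]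
  have hgrad : HtGrad fun h => (∑ u ∈ latBall u0 a, w u * (h u : ℝ)) ^ (2 * m) := by
    intro h c
    show (∑ u ∈ latBall u0 a, w u * ((h u + c : ℤ) : ℝ)) ^ (2 * m) = (∑ u ∈ latBall u0 a, w u * (h u : ℝ)) ^ (2 * m)
    congr 1
    have : ∑ u ∈ latBall u0 a, w u * ((h u + c : ℤ) : ℝ) = ∑ u ∈ latBall u0 a, w u * (h u : ℝ) + (∑ u ∈ latBall u0 a, w u) * c := by
      rw [Finset.sum_mul, ← Finset.sum_add_distrib]
      exact Finset.sum_congr rfl fun u _ => by push_cast; ring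
    rw [this, h0, zero_mul, add_zero]
  refine le_of_tendsto (hlim _ _ hloc hgrad) ?_
  filter_upwards [eventually_ge_atTop (latDist 0 u0 + C0 * a)] with R hR
  have := HC (latBall 0 R) u0 a 9 (momArr u0 a w) (mom_ball_co 0 R) ha (mom_ball_sub hR) (mom_arr_sm u0 ha hw)
    (by rw [mom_arr_latTot, h0])
  refine le_trans (le_of_eq ?_) this
  congr 1
  funext h
  rw [mom_arr_latArr, (even_two_mul m).pow_abs]

end plane

/-- house rule: the equation lemmas of the defs of this file are generated HERE -/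
theorem mom_sm_eqns_cite : True := by
  have := @momM.eq_1; have := @momC.eq_1; have := @momGlue.eq_1; have := @momU.eq_1; have := @momArr.eq_1
  trivial

end Claimed.Agent.R291
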