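import Claimed.Agent.R291.Mom.Smear
import Claimed.Agent.R291.Exit.MomSmear
import Claimed.Agent.R291.Exit.DisCut
import Claimed.Agent.R291.Exit.DisSwitch

/-!
# Row 291 (S0539), unit MOM, `Mom/Plane`      (owner helper23; head of the unit helper122; prefix `mom_pl_`, `mom_nd_`, def `momInd`)

* TEX[prop:plane-moments]: `mom_pl_main` = the statement of `exit_mom_plane`, from `exit_dis_cut` (stopped cut), `exit_mom_smear` (`p = 2`, trace in a pair `{k, k+1}`), Chebyshev,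
  and the amplification `mdp_amp_one` / `mdp_amp_mom_div` with ONE class and central mass `c1 / 2`.
* TEX[lem:nondegeneracy]: `mom_nd_main` = the statement of `exit_mom_nondeg`, from `exit_dis_switch` (symmetric kernel of the protected switch).
-/

set_option autoImplicit false

namespace Claimed.Agent.R291

open Finset Claims Claims.C0467

/-! ## A. tools on the laws of `Defs/Ht` -/

open Classical in
/-- indicator of an event, the one used by `htP` -/
noncomputable def momInd (K : (TV → ℤ) → Prop) : (TV → ℤ) → ℝ := fun h => if K h then 1 else 0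

theorem mom_pl_eqns_cite : True := by
  have := @momInd.eq_1
  trivial

theorem mom_pl_P_eq (x : ℝ) (A : Finset TV) (b : TV → ℤ) (K : (TV → ℤ) → Prop) : htP x A b K = htE x A b (momInd K) := rfl

theorem mom_pl_ind_nonneg (K : (TV → ℤ) → Prop) (h : TV → ℤ) : 0 ≤ momInd K h := by
  unfold momInd; split_ifs <;> norm_num

/-- **central mass ⟹ all moments** on a law of `Defs/Ht` (Lemma 3.4 + Lemma 3.5 with one class), any free set, any boundary function -/
theorem mom_pl_amp {x : ℝ} (hx0 : 0 ≤ x) (hx1 : x ≤ 1) {A : Finset TV} {b : TV → ℤ} (S : Finset TV) (w : TV → ℝ) {c M : ℝ} (hM : 0 < M) (hc : 0 < c)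
    (hA : (∑ u ∈ S, |w u|) / 2 ≤ M) (hcen : c ≤ htP x A b (fun h => |midY S w h| ≤ M)) (p : ℕ) :
    htE x A b (fun h => |midY S w h| ^ p) ≤ mdpC 1 c p * M ^ p := by
  have hC := mdpC_pos 1 c p
  rcases (mom_htZ_nonneg (A := A) (b := b) hx0).eq_or_lt with hZ | hZ
  · unfold htE; rw [← hZ, div_zero]; positivity
  have hcen' : c * ∑ s ∈ htCfg A b, htWt x A s ≤ ∑ s ∈ htCfg A b with |midY S w s| ≤ M, htWt x A s := by
    rw [mom_pl_P_eq] at hcen
    unfold htE at hcen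
    rw [le_div_iff₀ hZ] at hcen
    refine hcen.trans (le_of_eq ?_)
    rw [sum_filter]
    refine sum_congr rfl fun s _ => ?_
    unfold momInd
    by_cases h : |midY S w s| ≤ M
    · rw [if_pos h, if_pos h, mul_one]
    · rw [if_neg h, if_neg h, mul_zero]
  have hamp : MdpAmp (htCfg A b) (htWt x A) (midY S w) (fun _ => ()) 1 c M :=
    mdp_amp_one (fun s _ => mom_htWt_nonneg hx0 s) hM hc
      (fun s hs t ht _ _ => ⟨mom_mem_of_adm hs (midL_htAdm_same (mom_adm_of_mem hs) (mom_adm_of_mem ht)),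
        mom_mem_of_adm hs (midU_htAdm_same (mom_adm_of_mem hs) (mom_adm_of_mem ht)),
        mid_htWt hx0 hx1 (mom_adm_of_mem hs) (mom_adm_of_mem ht)⟩)
      (fun s _ t _ _ _ => ⟨(midL_round S w s t).trans hA, (midU_round S w s t).trans hA⟩)
      hcen'
  have := mdp_amp_mom_div hamp p
  unfold htE htZ
  calc (∑ h ∈ htCfg A b, htWt x A h * |midY S w h| ^ p) / ∑ h ∈ htCfg A b, htWt x A h
      = (∑ s ∈ htCfg A b, |midY S w s| ^ p * htWt x A s) / ∑ s ∈ htCfg A b, htWt x A s := by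
        congr 1; exact sum_congr rfl fun s _ => mul_comm _ _
    _ ≤ _ := this

/-- Chebyshev: second moment `≤ V`, `2 V ≤ M^2` ⟹ central mass `≥ 1/2` -/
theorem mom_pl_cheb {x : ℝ} (hx0 : 0 < x) {F : Finset TV} {b : TV → ℤ} (hfe : ∃ h, HtAdm F b h) (Y : (TV → ℤ) → ℝ) {V M : ℝ} (hM : 0 < M)
    (h2 : htE x F b (fun h => |Y h| ^ 2) ≤ V) (hV : 2 * V ≤ M ^ 2) : 1 / 2 ≤ htP x F b (fun h => |Y h| ≤ M) := by
  obtain ⟨h0, hh0⟩ := hfe
  have hM2 : 0 < M ^ 2 := by positivity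
  have h1 : htP x F b (fun h => ¬ |Y h| ≤ M) ≤ htP x F b (fun h => M ^ 2 ≤ |Y h| ^ 2) :=
    ht_P_mono hx0 F b fun h _ hn => pow_le_pow_left₀ hM.le (not_le.1 hn).le 2
  have h3 := ht_P_markov hx0 F b (G := fun h => |Y h| ^ 2) (fun h _ => by positivity) hM2
  have h4 : htE x F b (fun h => |Y h| ^ 2) / M ^ 2 ≤ 1 / 2 := by
    rw [div_le_iff₀ hM2]; linarith
  have h5 := ht_P_not hx0 hh0 (fun h => |Y h| ≤ M)
  linarith

theorem mom_pl_arr_shift (w : TV →₀ ℝ) (h : TV → ℤ) (c : ℤ) : latArr w (fun u => h u + c) = latArr w h + c * latTot w := by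
  unfold latArr latTot Finsupp.sum
  rw [mul_sum, ← sum_add_distrib]
  exact sum_congr rfl fun u _ => by push_cast; ring

theorem mom_pl_arr_loc {S : Finset TV} {w : TV →₀ ℝ} (hS : w.support ⊆ S) {h h' : TV → ℤ} (hh : ∀ u ∈ S, h u = h' u) : latArr w h = latArr w h' := by
  unfold latArr Finsupp.sum
  exact sum_congr rfl fun u hu => by simp only [hh u (hS hu)]

/-- a gradient observable does not see a constant shift of the boundary function -/
theorem mom_pl_grad (x : ℝ) (F : Finset TV) (b : TV → ℤ) (k : ℤ) {G : (TV → ℤ) → ℝ} (hG : HtGrad G) : htE x F b G = htE x F (fun u => b u - k) G := by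
  have h1 := hto_shift x F (fun u => b u - k) k G
  simp only [sub_add_cancel] at h1
  rw [h1]
  congr 1
  funext h
  exact hG h k

theorem mom_pl_ball_not_sub (z0 : TV) (r : ℕ) : ¬ latBall z0 (r + 1) ⊆ latBall z0 r := by
  intro hc
  have h1 : z0 + ((r : ℤ) + 1, 0) ∈ latBall z0 (r + 1) := by
    rw [lat_mem_ball, add_sub_cancel_left]
    unfold latN
    simp only [add_zero]
    omega
  have h2 := lat_mem_ball.1 (hc h1)
  rw [add_sub_cancel_left] at h2
  unfold latN at h2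
  simp only [add_zero] at h2
  omega

/-! ## B. TEX[prop:plane-moments] -/

/-- second moment in a cut problem: trace in a pair `{k, k+1}`, `latBall z0 ρ ⊆ F ⊆ latBall z0 (2ρ)`, `3a ≤ ρ ≤ (3 + ρ0) a` -/
theorem mom_pl_second {x C2 : ℝ} (hC2 : 0 < C2)
    (hsm : ∀ (F : Finset TV) (b : TV → ℤ) (K : ℝ) (z0 : TV) (a n : ℕ) (A : ℝ) (w : TV →₀ ℝ),
      MomCo F → (∀ u ∈ latOut F, |(b u : ℝ)| ≤ K) → 1 ≤ a → latBall z0 (3 * a) ⊆ F → ¬ latBall z0 n ⊆ F →
      MomSm z0 a A w →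
      htE x F b (fun h => |latArr w h| ^ 2) ≤ (C2 * A * (1 + K + Real.sqrt (Real.log ((n : ℝ) / a)))) ^ 2)
    (ρ0 : ℕ) {F : Finset TV} {b : TV → ℤ} {k : ℤ} {z0 : TV} {a ρ : ℕ} {A : ℝ} {w : TV →₀ ℝ} (hF : MomCo F) (ha : 1 ≤ a) (h3 : 3 * a ≤ ρ)
    (hρ : ρ ≤ (3 + ρ0) * a) (hin : latBall z0 ρ ⊆ F) (hout : F ⊆ latBall z0 (2 * ρ)) (hb : ∀ u ∈ latOut F, b u = k ∨ b u = k + 1)
    (hw : MomSm z0 a A w) (htot : latTot w = 0) :
    htE x F b (fun h => |latArr w h| ^ 2) ≤ (C2 * A * (2 + Real.sqrt (Real.log (2 * (3 + (ρ0 : ℝ)) + 1)))) ^ 2 := by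
  have hA : 0 ≤ A := (sum_nonneg fun u _ => abs_nonneg (w u)).trans hw.l1
  have hgrad : HtGrad (fun h => |latArr w h| ^ 2) := by
    intro h c
    simp only [mom_pl_arr_shift, htot, mul_zero, add_zero]
  rw [mom_pl_grad x F b k hgrad]
  have hb' : ∀ u ∈ latOut F, |((b u - k : ℤ) : ℝ)| ≤ 1 := by
    intro u hu
    rcases hb u hu with h | h
    · rw [h]; simp
    · rw [h]; simp
  have hn : ¬ latBall z0 (2 * ρ + 1) ⊆ F := fun hc => mom_pl_ball_not_sub z0 (2 * ρ) (hc.trans hout)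
  have h1 := hsm F (fun u => b u - k) 1 z0 a (2 * ρ + 1) A w hF hb' ha ((mom_ball_mono z0 h3).trans hin) hn hw
  refine h1.trans ?_
  have ha0 : (0 : ℝ) < a := by exact_mod_cast ha
  have h2 : ((2 * ρ + 1 : ℕ) : ℝ) / a ≤ 2 * (3 + (ρ0 : ℝ)) + 1 := by
    rw [div_le_iff₀ ha0]
    have e1 : (ρ : ℝ) ≤ (3 + (ρ0 : ℝ)) * a := by exact_mod_cast hρ
    have e2 : (1 : ℝ) ≤ a := by exact_mod_cast ha
    push_cast
    nlinarith
  have h4 : 0 < ((2 * ρ + 1 : ℕ) : ℝ) / a := by positivity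
  have h5 : Real.sqrt (Real.log (((2 * ρ + 1 : ℕ) : ℝ) / a)) ≤ Real.sqrt (Real.log (2 * (3 + (ρ0 : ℝ)) + 1)) :=
    Real.sqrt_le_sqrt (Real.log_le_log h4 h2)
  have h6 := Real.sqrt_nonneg (Real.log (((2 * ρ + 1 : ℕ) : ℝ) / a))
  refine pow_le_pow_left₀ (by positivity) ?_ 2
  exact mul_le_mul_of_nonneg_left (by linarith) (by positivity)

/-- **TEX[prop:plane-moments]** = the statement of `exit_mom_plane` -/
theorem mom_pl_main (x : ℝ) (hx1 : 1 / Real.sqrt 2 ≤ x) (hx2 : x ≤ 1) :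
    ∃ C0 : ℕ, ∀ p : ℕ, ∃ C : ℝ, 0 < C ∧ ∀ (F : Finset TV) (z0 : TV) (a : ℕ) (A : ℝ) (w : TV →₀ ℝ),
      MomCo F → 1 ≤ a → latBall z0 (C0 * a) ⊆ F → MomSm z0 a A w → latTot w = 0 →
      htE x F 0 (fun h => |latArr w h| ^ p) ≤ (C * A) ^ p := by
  have hx0 : 0 < x := lt_of_lt_of_le (by positivity) hx1
  obtain ⟨c1, L1, ρ0, hc1, hcut⟩ := exit_dis_cut x hx1 hx2
  obtain ⟨C2, hC2, hsm⟩ := exit_mom_smear x hx1 hx2 2
  refine ⟨L1 * (3 + ρ0), fun p => ?_⟩
  set c4 : ℝ := 2 + Real.sqrt (Real.log (2 * (3 + (ρ0 : ℝ)) + 1)) with hc4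
  have hc40 : 0 < c4 := by have := Real.sqrt_nonneg (Real.log (2 * (3 + (ρ0 : ℝ)) + 1)); linarith
  set Mc : ℝ := 2 * C2 * c4 + 1 with hMc
  have hMc0 : 0 < Mc := by positivity
  set cp := mdpC 1 (c1 / 2) p with hcp
  have hcp0 : 0 < cp := mdpC_pos 1 (c1 / 2) p
  refine ⟨(cp + 1) * Mc, by positivity, ?_⟩
  intro F z0 a A w hF ha hin hw htot
  rcases Nat.eq_zero_or_pos p with hp | hp
  · subst hp
    simp only [pow_zero]
    exact ht_E_one_le hx0 F 0
  have hA : 0 ≤ A := (sum_nonneg fun u _ => abs_nonneg (w u)).trans hw.l1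
  rcases hA.eq_or_lt with hA0 | hApos
  · -- `A = 0`: the statistic vanishes
    have hw0 : ∀ u ∈ w.support, w u = 0 := by
      intro u hu
      have h1 : |w u| ≤ ∑ v ∈ w.support, |w v| := single_le_sum (f := fun v => |w v|) (fun v _ => abs_nonneg _) hu
      have h2 : |w u| ≤ 0 := by rw [hA0]; exact h1.trans hw.l1
      exact abs_eq_zero.1 (le_antisymm h2 (abs_nonneg _))
    have hY : ∀ h : TV → ℤ, latArr w h = 0 := fun h => by
      unfold latArr Finsupp.sum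
      exact sum_eq_zero fun u hu => by simp only [hw0 u hu, zero_mul]
    simp only [hY, abs_zero, zero_pow hp.ne']
    rw [ht_E_zero]
    positivity
  set M : ℝ := Mc * A with hM
  have hM0 : 0 < M := by positivity
  set ρ := max (3 * a) ρ0 with hρdef
  have h3 : 3 * a ≤ ρ := le_max_left _ _
  have hρ0 : ρ0 ≤ ρ := le_max_right _ _
  have hρ : ρ ≤ (3 + ρ0) * a := by
    apply max_le
    · nlinarith
    · nlinarith
  have hin' : latBall z0 (L1 * ρ) ⊆ F := by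
    refine (mom_ball_mono z0 ?_).trans hin
    rw [mul_assoc]
    exact Nat.mul_le_mul_left L1 hρ
  -- the central event
  have hloc : HtLoc (latBall z0 ρ) (momInd fun h => |latArr w h| ≤ M) := by
    intro h h' hh
    have : latArr w h = latArr w h' := mom_pl_arr_loc (hw.supp.trans (mom_ball_mono z0 (by omega))) hh
    unfold momInd
    simp only [this]
  have hgrad : HtGrad (momInd fun h => |latArr w h| ≤ M) := by
    intro h c
    unfold momInd
    simp only [mom_pl_arr_shift, htot, mul_zero, add_zero]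
  have hcen : c1 * (1 / 2) ≤ htE x F 0 (momInd fun h => |latArr w h| ≤ M) := by
    refine hcut F z0 ρ _ (1 / 2) hF hρ0 hin' (mom_pl_ind_nonneg _) hloc hgrad ?_
    intro F' b k hF' hi ho hne hb
    obtain ⟨g, hg⟩ := hne
    have h2 := mom_pl_second hC2 hsm ρ0 hF' ha h3 hρ hi ho hb hw htot
    rw [← mom_pl_P_eq]
    refine mom_pl_cheb hx0 ⟨g, ht_mem_cfg.1 hg⟩ (fun h => latArr w h) hM0 h2 ?_
    rw [hM, hMc, ← hc4]
    have e1 : 0 ≤ C2 * A * c4 := by positivity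
    nlinarith
  -- amplification
  have harr : ∀ h : TV → ℤ, latArr w h = midY (latBall z0 a) w h := mom_latArr_ball hw
  have hl1 : (∑ u ∈ latBall z0 a, |w u|) / 2 ≤ M := by
    have h1 := (hw.toSmear ha).sum_le
    have h2 : A ≤ M := by
      rw [hM, hMc]
      have : 0 ≤ 2 * C2 * c4 * A := by positivity
      nlinarith
    linarith
  have hcen' : c1 / 2 ≤ htP x F 0 (fun h => |midY (latBall z0 a) w h| ≤ M) := by
    rw [mom_pl_P_eq]
    simp only [← harr]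
    linarith
  have hamp := mom_pl_amp hx0.le hx2 (A := F) (b := 0) (latBall z0 a) w hM0 (by positivity) hl1 hcen' p
  simp only [← harr] at hamp
  refine hamp.trans ?_
  rw [← hcp, hM]
  have h1 : cp ≤ (cp + 1) ^ p := (by linarith : cp ≤ cp + 1).trans (le_self_pow₀ (by linarith) hp.ne')
  calc cp * (Mc * A) ^ p ≤ (cp + 1) ^ p * (Mc * A) ^ p := mul_le_mul_of_nonneg_right h1 (by positivity)
    _ = ((cp + 1) * Mc * A) ^ p := by rw [← mul_pow]; ring

/-! ## C. TEX[lem:nondegeneracy] -/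

/-- the switch moves the statistic by `e` times the mass of the inner ball -/
theorem mom_nd_diff {z1 : TV} {R R' : ℕ} {w : TV →₀ ℝ} (hw : ∀ u ∈ latBall z1 R', u ∉ latBall z1 R → w u = 0) {h h' : TV → ℤ} {e : ℤ}
    (hoff : ∀ u, u ∉ latBall z1 R' → h' u = h u) (hin : ∀ u ∈ latBall z1 R, h' u = h u + e) :
    latArr w h' - latArr w h = e * ∑ u ∈ latBall z1 R, w u := by
  classical
  unfold latArr Finsupp.sum
  rw [← sum_sub_distrib]
  have e1 : ∀ u ∈ w.support, w u * (h' u : ℝ) - w u * (h u : ℝ) = if u ∈ latBall z1 R then (e : ℝ) * w u else 0 := by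
    intro u _
    by_cases h1 : u ∈ latBall z1 R
    · rw [if_pos h1, hin u h1]; push_cast; ring
    · rw [if_neg h1]
      by_cases h3 : u ∈ latBall z1 R'
      · rw [hw u h3 h1]; ring
      · rw [hoff u h3]; ring
  rw [sum_congr rfl e1, ← sum_filter, mul_sum]
  refine sum_subset (fun u hu => (mem_filter.1 hu).2) (fun u hu hn => ?_)
  have : u ∉ w.support := fun hs => hn (mem_filter.2 ⟨hs, hu⟩)
  rw [Finsupp.notMem_support_iff.1 this, mul_zero]

/-- **TEX[lem:nondegeneracy]** = the statement of `exit_mom_nondeg` -/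
theorem mom_nd_main (x : ℝ) (hx1 : 1 / Real.sqrt 2 ≤ x) (hx2 : x ≤ 1) :
    ∃ (c : ℝ) (R0 C0 C1 : ℕ), 0 < c ∧ ∀ (F : Finset TV) (z1 : TV) (R : ℕ) (w : TV →₀ ℝ),
      MomCo F → R0 ≤ R → latBall z1 (C0 * R) ⊆ F →
      (∀ u ∈ latBall z1 (C1 * R), u ∉ latBall z1 R → w u = 0) →
      c * (∑ u ∈ latBall z1 R, w u) ^ 2 ≤ htE x F 0 (fun h => (latArr w h) ^ 2) := by
  have hx0 : 0 < x := lt_of_lt_of_le (by positivity) hx1
  obtain ⟨c2, R0, C0, C1, hc2, H⟩ := exit_dis_switch x hx1 hx2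
  refine ⟨4 * c2, R0, C0, C1, by positivity, ?_⟩
  intro F z1 R w hF hR hin hw
  obtain ⟨M, hM0, hMs, hMm, hMc, hMt⟩ := H F z1 R hF hR hin
  set m := ∑ u ∈ latBall z1 R, w u with hm
  set Ω := htCfg F 0 with hΩ
  have hZ : 0 < htZ x F 0 := ht_Z_pos_zero hx0 F
  have hpt : ∀ h h', M h h' * (16 * m ^ 2) ≤ M h h' * (2 * (latArr w h) ^ 2 + 2 * (latArr w h') ^ 2) := by
    intro h h'
    by_cases h0 : M h h' = 0
    · rw [h0, zero_mul, zero_mul]
    · obtain ⟨hoff, k, hk, hc⟩ := hMc h h' h0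
      have hk16 : (16 : ℝ) ≤ (k : ℝ) ^ 2 := by
        have h1 : 4 ≤ k ∨ k ≤ -4 := by omega
        have h2 : (16 : ℤ) ≤ k ^ 2 := by rcases h1 with h1 | h1 <;> nlinarith
        exact_mod_cast h2
      have hd : 16 * m ^ 2 ≤ (latArr w h' - latArr w h) ^ 2 := by
        rw [mom_nd_diff hw hoff hc, mul_pow]
        exact mul_le_mul_of_nonneg_right hk16 (sq_nonneg m)
      apply mul_le_mul_of_nonneg_left _ (hM0 h h')
      nlinarith [sq_nonneg (latArr w h' + latArr w h)]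
  have hs1 : ∑ h ∈ Ω, ∑ h' ∈ Ω, M h h' * (latArr w h) ^ 2 ≤ ∑ h ∈ Ω, htWt x F h * (latArr w h) ^ 2 := by
    refine sum_le_sum fun h hh => ?_
    rw [← sum_mul]
    exact mul_le_mul_of_nonneg_right (hMm h hh) (sq_nonneg _)
  have hs2 : ∑ h ∈ Ω, ∑ h' ∈ Ω, M h h' * (latArr w h') ^ 2 = ∑ h ∈ Ω, ∑ h' ∈ Ω, M h h' * (latArr w h) ^ 2 := by
    rw [sum_comm]
    exact sum_congr rfl fun h _ => sum_congr rfl fun h' _ => by rw [hMs]
  have hs3 : (∑ h ∈ Ω, ∑ h' ∈ Ω, M h h') * (16 * m ^ 2) ≤ 4 * ∑ h ∈ Ω, htWt x F h * (latArr w h) ^ 2 := by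
    calc (∑ h ∈ Ω, ∑ h' ∈ Ω, M h h') * (16 * m ^ 2) = ∑ h ∈ Ω, ∑ h' ∈ Ω, M h h' * (16 * m ^ 2) := by
          rw [sum_mul]; exact sum_congr rfl fun h _ => sum_mul _ _ _
      _ ≤ ∑ h ∈ Ω, ∑ h' ∈ Ω, M h h' * (2 * (latArr w h) ^ 2 + 2 * (latArr w h') ^ 2) :=
          sum_le_sum fun h _ => sum_le_sum fun h' _ => hpt h h'
      _ = 2 * ∑ h ∈ Ω, ∑ h' ∈ Ω, M h h' * (latArr w h) ^ 2 + 2 * ∑ h ∈ Ω, ∑ h' ∈ Ω, M h h' * (latArr w h') ^ 2 := by
          simp_rw [mul_sum]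
          rw [← sum_add_distrib]
          refine sum_congr rfl fun h _ => ?_
          rw [← sum_add_distrib]
          exact sum_congr rfl fun h' _ => by ring
      _ ≤ 4 * ∑ h ∈ Ω, htWt x F h * (latArr w h) ^ 2 := by rw [hs2]; linarith
  unfold htE
  rw [le_div_iff₀ hZ]
  have h5 : c2 * htZ x F 0 * (16 * m ^ 2) ≤ (∑ h ∈ Ω, ∑ h' ∈ Ω, M h h') * (16 * m ^ 2) := mul_le_mul_of_nonneg_right hMt (by positivity)
  nlinarith

end Claimed.Agent.R291
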